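import Vale.Agent.P156.H613.Pick
import Vale.Agent.P156.R2.Defs

/-!
C7a for the cut resolvents `resD`, and a priori bounds for their diagonal entries.
-/

open Complex Matrix
open scoped ComplexConjugate

namespace P156.H613

open Vale.Agent.P156

variable {V : Type*} [Fintype V] [DecidableEq V]

/-- real part of the cut matrix -/
def cutReal (A : Matrix V V ℝ) (D : Finset V) : Matrix V V ℝ :=
  fun x y => if x ∈ D ∨ y ∈ D then (if x = y then 1 else 0) else A x y

/-- indicator of the complement of `D` -/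
def cutP (D : Finset V) : V → ℝ := fun x => if x ∈ D then 0 else 1

omit [Fintype V] in
lemma cutMat_eq_pencil (A : Matrix V V ℝ) (D : Finset V) (z : ℂ) :
    cutMat A D z = pencil (cutReal A D) (cutP D) z := by
  ext x y
  simp only [cutMat, pencil, cutReal, cutP, Matrix.sub_apply, Matrix.map_apply,
    Matrix.smul_apply, Matrix.diagonal_apply, smul_eq_mul]
  by_cases hx : x ∈ D
  · by_cases hxy : x = y <;> simp [hx, hxy]
    subst hxy
    simp [hx]
  · by_cases hy : y ∈ D
    · have hxy : x ≠ y := fun h => hx (h ▸ hy)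
      simp [hx, hy, hxy]
    · by_cases hxy : x = y <;> simp [hx, hy, hxy]

omit [Fintype V] in
lemma cutReal_isSymm {A : Matrix V V ℝ} (hA : A.IsSymm) (D : Finset V) :
    (cutReal A D).IsSymm := by
  ext x y
  simp only [Matrix.transpose_apply, cutReal, hA.apply x y]
  by_cases hx : x ∈ D <;> by_cases hy : y ∈ D <;> simp [hx, hy, eq_comm]

omit [Fintype V] in
lemma cutP_nonneg (D : Finset V) (x : V) : 0 ≤ cutP D x := by
  unfold cutP; split_ifs <;> norm_num

lemma cutMat_isUnit {A : Matrix V V ℝ} (hA : A.IsSymm) (D : Finset V) {z : ℂ} (hz : 0 < z.im) :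
    IsUnit (cutMat A D z).det := by
  rw [cutMat_eq_pencil]
  refine pencil_isUnit (cutReal_isSymm hA D) (cutP_nonneg D) ?_ hz
  intro i hi j
  have : i ∈ D := by
    by_contra h
    simp [cutP, h] at hi
  simp [cutReal, this]

lemma qf_single (B : Matrix V V ℝ) (p : V → ℝ) (w : V) (z : ℂ) :
    qf B p (Pi.single w 1) z = (pencil B p z)⁻¹ w w := by
  unfold qf
  have : (fun i => ((Pi.single w (1 : ℝ) : V → ℝ) i : ℂ)) = Pi.single w (1 : ℂ) := by
    funext i
    by_cases h : i = w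
    · subst h; simp
    · simp [h]
  rw [this]
  simp

lemma resD_eq_qf (A : Matrix V V ℝ) (D : Finset V) (w : V) (z : ℂ) :
    resD A D z w w = qf (cutReal A D) (cutP D) (Pi.single w 1) z := by
  rw [qf_single, resD, cutMat_eq_pencil]

/-- **C7a** for the cut resolvents. -/
theorem pick_resD {A : Matrix V V ℝ} (hA : A.IsSymm) (D : Finset V) (w : V) {z z' : ℂ}
    (hz : 0 < z.im) (hz' : 0 < z'.im) :
    ‖resD A D z w w - resD A D z' w w‖ ^ 2 ≤ ‖z - z'‖ ^ 2 / (z.im * z'.im) *
      ((resD A D z w w).im * (resD A D z' w w).im) := by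
  rw [resD_eq_qf, resD_eq_qf]
  refine pick_qf (cutReal_isSymm hA D) (cutP_nonneg D) _ hz hz' ?_ ?_
  · rw [← cutMat_eq_pencil]; exact cutMat_isUnit hA D hz
  · rw [← cutMat_eq_pencil]; exact cutMat_isUnit hA D hz'

/-- the imaginary part of a diagonal entry -/
lemma resD_im {A : Matrix V V ℝ} (hA : A.IsSymm) (D : Finset V) (w : V) {z : ℂ}
    (hz : 0 < z.im) :
    (resD A D z w w).im = z.im * ∑ i, cutP D i * ‖resD A D z i w‖ ^ 2 := by
  rw [resD_eq_qf, qf_im (cutReal_isSymm hA D)]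
  · congr 1
    refine Finset.sum_congr rfl fun i _ => ?_
    congr 2
    have : (fun i => ((Pi.single w (1 : ℝ) : V → ℝ) i : ℂ)) = Pi.single w (1 : ℂ) := by
      funext i
      by_cases h : i = w
      · subst h; simp
      · simp [h]
    rw [this, ← cutMat_eq_pencil]
    simp [resD]
  · rw [← cutMat_eq_pencil]; exact cutMat_isUnit hA D hz

lemma resD_im_nonneg {A : Matrix V V ℝ} (hA : A.IsSymm) (D : Finset V) (w : V) {z : ℂ}
    (hz : 0 < z.im) : 0 ≤ (resD A D z w w).im := by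
  rw [resD_im hA D w hz]
  exact mul_nonneg hz.le (Finset.sum_nonneg fun i _ => mul_nonneg (cutP_nonneg D i) (sq_nonneg _))

lemma resD_norm_le {A : Matrix V V ℝ} (hA : A.IsSymm) {D : Finset V} {w : V} (hw : w ∉ D) {z : ℂ}
    (hz : 0 < z.im) : ‖resD A D z w w‖ ≤ 1 / z.im := by
  have h1 := resD_im hA D w hz
  have h2 : ‖resD A D z w w‖ ^ 2 ≤ ∑ i, cutP D i * ‖resD A D z i w‖ ^ 2 := by
    have : cutP D w * ‖resD A D z w w‖ ^ 2 ≤ ∑ i, cutP D i * ‖resD A D z i w‖ ^ 2 :=
      Finset.single_le_sum (f := fun i => cutP D i * ‖resD A D z i w‖ ^ 2)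
        (fun i _ => mul_nonneg (cutP_nonneg D i) (sq_nonneg _)) (Finset.mem_univ w)
    simpa [cutP, hw] using this
  have h3 : z.im * ‖resD A D z w w‖ ^ 2 ≤ ‖resD A D z w w‖ := by
    calc z.im * ‖resD A D z w w‖ ^ 2 ≤ z.im * ∑ i, cutP D i * ‖resD A D z i w‖ ^ 2 := by gcongr
      _ = (resD A D z w w).im := h1.symm
      _ ≤ |(resD A D z w w).im| := le_abs_self _
      _ ≤ _ := Complex.abs_im_le_norm _
  rw [le_div_iff₀ hz]
  rcases eq_or_lt_of_le (norm_nonneg (resD A D z w w)) with h | h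
  · rw [← h]; simp
  · have : z.im * ‖resD A D z w w‖ ≤ 1 := by
      have := h3
      nlinarith
    linarith

/-- lower bound for the imaginary part by the norm of the row -/
lemma resD_im_lower {A : Matrix V V ℝ} (hA : A.IsSymm) {D : Finset V} {w : V} (hw : w ∉ D) {z : ℂ}
    (hz : 0 < z.im) {S : ℝ} (hS : ∑ j, ‖cutMat A D z w j‖ ^ 2 ≤ S) :
    z.im ≤ (resD A D z w w).im * S := by
  rw [resD_im hA D w hz]
  have hmul : (cutMat A D z * resD A D z) w w = 1 := by
    rw [resD, Matrix.mul_nonsing_inv _ (cutMat_isUnit hA D hz)]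
    simp
  rw [Matrix.mul_apply] at hmul
  have h1 : (1 : ℝ) ≤ ∑ j, ‖cutMat A D z w j‖ * ‖resD A D z j w‖ := by
    calc (1 : ℝ) = ‖(1 : ℂ)‖ := by simp
      _ = ‖∑ j, cutMat A D z w j * resD A D z j w‖ := by rw [hmul]
      _ ≤ ∑ j, ‖cutMat A D z w j * resD A D z j w‖ := norm_sum_le _ _
      _ = _ := by simp_rw [norm_mul]
  have h2 : ∑ j, ‖cutMat A D z w j‖ * ‖resD A D z j w‖ =
      ∑ j, ‖cutMat A D z w j‖ * (cutP D j * ‖resD A D z j w‖) := by
    refine Finset.sum_congr rfl fun j _ => ?_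
    by_cases hj : j ∈ D
    · have hne : w ≠ j := fun h => hw (h ▸ hj)
      simp [cutMat, hj, hne]
    · simp [cutP, hj]
  rw [h2] at h1
  have h3 := Finset.sum_mul_sq_le_sq_mul_sq Finset.univ (fun j => ‖cutMat A D z w j‖)
    (fun j => cutP D j * ‖resD A D z j w‖)
  have h4 : ∑ j, (cutP D j * ‖resD A D z j w‖) ^ 2 = ∑ j, cutP D j * ‖resD A D z j w‖ ^ 2 := by
    refine Finset.sum_congr rfl fun j _ => ?_
    unfold cutP
    split_ifs <;> simp
  rw [h4] at h3
  have h5 : (1 : ℝ) ≤ (∑ j, ‖cutMat A D z w j‖ * (cutP D j * ‖resD A D z j w‖)) ^ 2 := by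
    nlinarith
  have h6 : 0 ≤ ∑ j, cutP D j * ‖resD A D z j w‖ ^ 2 :=
    Finset.sum_nonneg fun j _ => mul_nonneg (cutP_nonneg D j) (sq_nonneg _)
  have h7 : 1 ≤ S * ∑ j, cutP D j * ‖resD A D z j w‖ ^ 2 := by
    calc (1 : ℝ) ≤ _ := h5
      _ ≤ _ := h3
      _ ≤ _ := by gcongr
  nlinarith

/-! ### adjacency matrices -/

lemma adj_isSymm {n : ℕ} (G : SimpleGraph (Fin n)) : (adj G).IsSymm := by
  classical
  unfold adj
  exact G.isSymm_adjMatrix

lemma adj_row {n d : ℕ} {G : SimpleGraph (Fin n)} (hG : G ∈ regularGraphs n d) (w : Fin n) :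
    ∑ j, adj G w j = d := by
  classical
  have h1 : G.IsRegularOfDegree d := by
    simpa [regularGraphs] using hG
  unfold adj
  simp only [SimpleGraph.adjMatrix_apply, Finset.sum_boole]
  have := h1 w
  rw [← this]
  congr 1
  rw [← SimpleGraph.card_neighborFinset_eq_degree]
  congr 1
  ext j
  simp

lemma cutMat_row_le {n d : ℕ} {G : SimpleGraph (Fin n)} (hG : G ∈ regularGraphs n d) {w : Fin n}
    {D : Finset (Fin n)} (hw : w ∉ D) (z : ℂ) :
    ∑ j, ‖cutMat (adj G) D z w j‖ ^ 2 ≤ d + ‖z‖ ^ 2 := by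
  classical
  have h1 : ∀ j, ‖cutMat (adj G) D z w j‖ ^ 2 ≤ adj G w j + (if j = w then ‖z‖ ^ 2 else 0) := by
    intro j
    have hA : adj G w j = if G.Adj w j then 1 else 0 := by
      unfold adj
      rw [SimpleGraph.adjMatrix_apply]
    by_cases hj : j ∈ D
    · have hne : w ≠ j := fun h => hw (h ▸ hj)
      simp only [cutMat, hw, hj, or_true, if_true, hne, if_false]
      rw [hA]
      have : (0 : ℝ) ≤ ‖z‖ ^ 2 := by positivity
      have h0 : ‖(0 : ℂ)‖ ^ 2 = 0 := by simp
      rw [h0]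
      split_ifs <;> linarith
    · by_cases hwj : w = j
      · subst hwj
        have : adj G w w = 0 := by rw [hA]; simp
        simp [cutMat, hw, this]
      · have hjw : j ≠ w := fun h => hwj h.symm
        simp only [cutMat, hw, hj, or_self, if_false, hwj, hjw, sub_zero, add_zero]
        rw [hA]
        split_ifs <;> simp
  calc ∑ j, ‖cutMat (adj G) D z w j‖ ^ 2
      ≤ ∑ j, (adj G w j + (if j = w then ‖z‖ ^ 2 else 0)) := Finset.sum_le_sum fun j _ => h1 j
    _ = d + ‖z‖ ^ 2 := by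
        rw [Finset.sum_add_distrib, adj_row hG w]
        simp

end P156.H613
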