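import Vale.Agent.P156.H613.TestF
import Vale.Agent.P156.H613.Range
import Vale.Agent.P156.H520.CDefs

/-!
C8: base scale estimate for the graphs, in the format of `H520.CDefs`.
-/

open Complex Matrix
open scoped ComplexConjugate

namespace P156.H613

open Vale.Agent.P156

section Weights

variable {ι : Type*} [Fintype ι]

/-- `wavg` only sees the indices with nonzero weight -/
lemma wavg_congr {p : ι → ℝ} {F F' : ι → ℝ} (h : ∀ i, p i ≠ 0 → F i = F' i) :
    wavg p F = wavg p F' := by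
  unfold wavg
  refine Finset.sum_congr rfl fun i _ => ?_
  by_cases hi : p i = 0
  · simp [hi]
  · rw [h i hi]

lemma wavgq_congr {q : ℕ} {p : ι → ℝ} {F F' : (Fin q → ι) → ℝ}
    (h : ∀ t, (∀ k, p (t k) ≠ 0) → F t = F' t) : wavgq q p F = wavgq q p F' := by
  unfold wavgq
  refine Finset.sum_congr rfl fun t _ => ?_
  by_cases hi : ∀ k, p (t k) ≠ 0
  · rw [h t hi]
  · push Not at hi
    obtain ⟨k, hk⟩ := hi
    rw [Finset.prod_eq_zero (Finset.mem_univ k) hk]
    simp

/-- **C8, pointwise**, for weights, indices of weight zero are ignored; control of the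
`L²` distance to `m(z)`. -/
theorem base_weights {q : ℕ} {η R c : ℝ} (hq : 1 ≤ q) (hη : 0 < η) (hR : 0 ≤ R) (hc : 0 < c)
    {E : ℝ} (hE : |E| ≤ R) {p : ι → ℝ} (hp : ∀ i, 0 ≤ p i) (hp1 : ∑ i, p i = 1) {h : ι → ℂ}
    (h1 : ∀ i, p i ≠ 0 → ‖h i‖ ≤ 1 / η) (h2 : ∀ i, p i ≠ 0 → c ≤ (h i).im) :
    wavg p (fun i => ‖h i - mz q (zz E η)‖ ^ 2) ≤
      (1 / η * ((η + q) / η * Cbd q η R c)) *
        |dfctW q p h (zz E η) (testF q η R c E)| := by
  classical
  obtain ⟨i₀, hi₀⟩ : ∃ i, p i ≠ 0 := by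
    by_contra hcon
    push Not at hcon
    simp [hcon] at hp1
  set h' : ι → ℂ := fun i => if p i ≠ 0 then h i else h i₀ with hh'
  have h1' : ∀ i, ‖h' i‖ ≤ 1 / η := by
    intro i
    by_cases hi : p i ≠ 0
    · simp only [hh', if_pos hi]; exact h1 i hi
    · simp only [hh', if_neg hi]; exact h1 i₀ hi₀
  have h2' : ∀ i, c ≤ (h' i).im := by
    intro i
    by_cases hi : p i ≠ 0
    · simp only [hh', if_pos hi]; exact h2 i hi
    · simp only [hh', if_neg hi]; exact h2 i₀ hi₀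
  have key := base_pointwise hq hη hR hc hE hp hp1 h1' h2'
  have heq : ∀ i, p i ≠ 0 → h' i = h i := by
    intro i hi
    simp [hh', hi]
  have hIs := mz_isM hq (z := zz E η) (by simpa using hη)
  have hm := hIs.im_pos
  have hm1 := hIs.im_le_one (by simpa using hη.le) hq
  have e1 : (∑ i, p i * testF q η R c E (h' i)) -
      ∑ t : Fin q → ι, (∏ l, p (t l)) * testF q η R c E (-1 / (zz E η + ∑ k, h' (t k))) =
      dfctW q p h (zz E η) (testF q η R c E) := by
    unfold dfctW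
    congr 1
    · exact wavg_congr (p := p) fun i hi => by rw [heq i hi]
    · refine wavgq_congr (p := p) fun t ht => ?_
      simp_rw [heq _ (ht _)]
  rw [e1] at key
  have e2 : wavg p (fun i => ‖h i - mz q (zz E η)‖ ^ 2) ≤
      1 / η * ∑ i, p i * phi (mz q (zz E η)) (h' i) := by
    unfold wavg
    rw [Finset.mul_sum]
    refine Finset.sum_le_sum fun i _ => ?_
    by_cases hi : p i = 0
    · simp [hi]
    · rw [heq i hi]
      have him : 0 < (h i).im := lt_of_lt_of_le hc (h2 i hi)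
      have him2 : (h i).im ≤ 1 / η :=
        ((le_abs_self _).trans (Complex.abs_im_le_norm _)).trans (h1 i hi)
      have : ‖h i - mz q (zz E η)‖ ^ 2 ≤ 1 / η * phi (mz q (zz E η)) (h i) := by
        have e3 : ‖h i - mz q (zz E η)‖ ^ 2 =
            ((h i).im * (mz q (zz E η)).im) * phi (mz q (zz E η)) (h i) := by
          unfold phi
          field_simp
        rw [e3]
        have := phi_nonneg hm him
        gcongr
        calc (h i).im * (mz q (zz E η)).im ≤ 1 / η * 1 := by gcongr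
          _ = 1 / η := by ring
      calc p i * ‖h i - mz q (zz E η)‖ ^ 2 ≤ p i * (1 / η * phi (mz q (zz E η)) (h i)) := by
            have := hp i
            gcongr
        _ = _ := by ring
  calc _ ≤ _ := e2
    _ ≤ 1 / η * ((η + q) / η * Cbd q η R c * |dfctW q p h (zz E η) (testF q η R c E)|) := by
        gcongr
    _ = _ := by ring

end Weights

/-! ### graphs -/

lemma ew_nonneg {n d : ℕ} (G : SimpleGraph (Fin n)) (e : Fin n × Fin n) : 0 ≤ ew d G e := by
  classical
  unfold ew adj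
  rw [SimpleGraph.adjMatrix_apply]
  split_ifs <;> positivity

lemma ew_sum {n d : ℕ} {G : SimpleGraph (Fin n)} (hG : G ∈ regularGraphs n d) (hn : n ≠ 0)
    (hd : d ≠ 0) : ∑ e, ew d G e = 1 := by
  unfold ew
  rw [← Finset.sum_div, Fintype.sum_prod_type]
  simp_rw [adj_row hG]
  have h1 : (n : ℝ) ≠ 0 := by exact_mod_cast hn
  have h2 : (d : ℝ) ≠ 0 := by exact_mod_cast hd
  rw [Finset.sum_const, Finset.card_univ, Fintype.card_fin, nsmul_eq_mul,
    div_self (mul_ne_zero h1 h2)]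

lemma ew_ne_zero {n d : ℕ} {G : SimpleGraph (Fin n)} {e : Fin n × Fin n} (h : ew d G e ≠ 0) :
    e.1 ≠ e.2 := by
  classical
  intro he
  apply h
  unfold ew adj
  rw [SimpleGraph.adjMatrix_apply, he]
  simp

/-- lower bound of the imaginary parts of the cavity resolvents -/
noncomputable def hlow (d : ℕ) (η R : ℝ) : ℝ := η / (d + (R + η) ^ 2)

lemma hlow_pos {d : ℕ} {η R : ℝ} (hη : 0 < η) (hR : 0 ≤ R) : 0 < hlow d η R := by
  unfold hlow; positivity

lemma hc_range {n d : ℕ} {G : SimpleGraph (Fin n)} (hG : G ∈ regularGraphs n d) {E η R : ℝ}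
    (hη : 0 < η) (hE : |E| ≤ R) {e : Fin n × Fin n} (he : e.1 ≠ e.2) :
    ‖hc G (zz E η) e‖ ≤ 1 / η ∧ hlow d η R ≤ (hc G (zz E η) e).im := by
  have hw : e.2 ∉ ({e.1} : Finset (Fin n)) := by simpa using he.symm
  have hz : 0 < (zz E η).im := by simpa using hη
  constructor
  · have := resD_norm_le (adj_isSymm G) hw hz
    simpa [hc] using this
  · have h1 := resD_im_lower (adj_isSymm G) hw hz (cutMat_row_le hG hw (zz E η))
    have h2 := norm_zz_le hE hη.le
    have h3 : 0 ≤ (resD (adj G) {e.1} (zz E η) e.2 e.2).im :=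
      resD_im_nonneg (adj_isSymm G) _ _ hz
    have hR : 0 ≤ R := (abs_nonneg E).trans hE
    unfold hlow hc
    rw [div_le_iff₀ (by positivity)]
    rw [zz_im] at h1
    calc η ≤ _ := h1
      _ ≤ _ := by gcongr

/-- constant of C8 -/
noncomputable def C8c (d : ℕ) (η R : ℝ) : ℝ :=
  1 / η * ((η + (d - 1 : ℕ)) / η * Cbd (d - 1) η R (hlow d η R))

/-- the test function of C8 -/
noncomputable def C8F (d : ℕ) (η R : ℝ) : ℝ → ℂ → ℝ := testF (d - 1) η R (hlow d η R)

lemma C8F_cls {d : ℕ} (hd : 2 ≤ d) {η R : ℝ} (hη : 0 < η) (hR : 0 ≤ R) : Cls (C8F d η R) :=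
  testF_cls (by omega) hη hR (hlow_pos hη hR)

lemma Cls.testF {F : ℝ → ℂ → ℝ} (hF : Cls F) (E : ℝ) : TestF 1 1 (F E) := by
  refine ⟨fun h hh => hF.bdd E h hh, fun h h' hh hh' => ⟨?_, ?_⟩⟩
  · rw [one_mul]; exact hF.lip E h h' hh hh'
  · rw [one_mul]; exact hF.lipInv E h h' hh hh'

/-- **C8 for graphs.** -/
theorem C8_graph {d : ℕ} (hd : 2 ≤ d) {η R : ℝ} (hη : 0 < η) {n : ℕ} (hn : n ≠ 0)
    {G : SimpleGraph (Fin n)} (hG : G ∈ regularGraphs n d) {E : ℝ} (hE : |E| ≤ R) :
    wavg (ew d G) (fun e => ‖hc G (zz E η) e - mz (d - 1) (zz E η)‖ ^ 2) ≤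
      C8c d η R * |dfct d G (zz E η) (C8F d η R E)| := by
  have hR : 0 ≤ R := (abs_nonneg E).trans hE
  exact base_weights (by omega) hη hR (hlow_pos hη hR) hE (ew_nonneg G)
    (ew_sum hG hn (by omega)) (fun e he => (hc_range hG hη hE (ew_ne_zero he)).1)
    (fun e he => (hc_range hG hη hE (ew_ne_zero he)).2)

/-- **C7a for graphs.** -/
theorem C7_graph {n : ℕ} (G : SimpleGraph (Fin n)) (E : ℝ) {η η' : ℝ} (hη : 0 < η) (hη' : 0 < η')
    (e : Fin n × Fin n) :
    ‖hc G (zz E η) e - hc G (zz E η') e‖ ^ 2 ≤ (η - η') ^ 2 / (η * η') *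
      ((hc G (zz E η) e).im * (hc G (zz E η') e).im) := by
  have h := pick_resD (adj_isSymm G) {e.1} e.2 (z := zz E η) (z' := zz E η')
    (by simpa using hη) (by simpa using hη')
  have e1 : zz E η - zz E η' = ((η - η' : ℝ) : ℂ) * I := by
    unfold zz; push_cast; ring
  rw [e1, norm_mul, Complex.norm_I, mul_one, Complex.norm_real, Real.norm_eq_abs, sq_abs, zz_im,
    zz_im] at h
  exact h

end P156.H613
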