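import Vale.Agent.P156.H613.C8
import Vale.Agent.P156.H992.Gap
import Vale.Agent.P156.R2.Spec

/-!
Bridges: uniqueness of `m(z)`, comparison of `m(E + iη)` with `m(E)`, base scale value of the
functional `wavg ‖T m h‖²`.
-/

open Complex Matrix
open scoped ComplexConjugate

namespace P156.H613

open Vale.Agent.P156 P156.Gap

/-- Uniqueness of the root with positive imaginary part. -/
lemma IsM.unique {q : ℕ} {z m m' : ℂ} (hq : 1 ≤ q) (h : IsM q z m) (h' : IsM q z m') :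
    m = m' := by
  by_contra hne
  have e1 := h.eq
  have e2 := h'.eq
  have hq0 : (q : ℂ) ≠ 0 := by exact_mod_cast (by omega : q ≠ 0)
  have hsub : m - m' ≠ 0 := sub_ne_zero.2 hne
  have e3 : (q : ℂ) * (m + m') + z = 0 := by
    have : (m - m') * ((q : ℂ) * (m + m') + z) = 0 := by linear_combination e1 - e2
    rcases mul_eq_zero.1 this with h0 | h0
    · exact absurd h0 hsub
    · exact h0
  have e4 : (q : ℂ) * (m * m') = 1 := by
    have : z = -((q : ℂ) * (m + m')) := by linear_combination e3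
    rw [this] at e1
    linear_combination (-1 : ℂ) * e1
  have hm0 := h.ne_zero
  have e5 : m' = ((1 / q : ℝ) : ℂ) * m⁻¹ := by
    push_cast
    field_simp
    linear_combination e4
  have h6 := congrArg Complex.im e5
  rw [Complex.im_ofReal_mul, Complex.inv_im] at h6
  have h7 := h'.im_pos
  have h8 := h.im_pos
  have h9 : 0 < Complex.normSq m := Complex.normSq_pos.2 hm0
  have hqr : (0 : ℝ) < q := by exact_mod_cast hq
  have h10 : 1 / (q : ℝ) * (-m.im / Complex.normSq m) < 0 := by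
    apply mul_neg_of_pos_of_neg (by positivity)
    apply div_neg_of_neg_of_pos (by linarith) h9
  linarith

lemma cast_pred {d : ℕ} (hd : 1 ≤ d) : (((d - 1 : ℕ)) : ℂ) = (d : ℂ) - 1 := by
  push_cast [Nat.cast_sub hd]
  ring

lemma isTree_iff {d : ℕ} (hd : 1 ≤ d) {z m : ℂ} :
    IsTreeStieltjes d z m ↔ IsM (d - 1) z m := by
  unfold IsTreeStieltjes
  rw [← cast_pred hd]
  exact ⟨fun h => ⟨h.1, h.2⟩, fun h => ⟨h.1, h.2⟩⟩

lemma isTree_eq_mz {d : ℕ} (hd : 2 ≤ d) {z m : ℂ} (hz : 0 < z.im) (h : IsTreeStieltjes d z m) :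
    m = mz (d - 1) z :=
  IsM.unique (by omega) ((isTree_iff (by omega)).1 h) (mz_isM (by omega) hz)

lemma mz_isTree {d : ℕ} (hd : 2 ≤ d) {z : ℂ} (hz : 0 < z.im) :
    IsTreeStieltjes d z (mz (d - 1) z) :=
  (isTree_iff (by omega)).2 (mz_isM (by omega) hz)

lemma Root.isM {q : ℕ} {E : ℝ} {m : ℂ} (h : Root q E m) : IsM q (E : ℂ) m := ⟨h.eqn, h.im_pos⟩

/-- `m(E+iη)` is close to `m(E)`. -/
lemma norm_sub_root_le {q : ℕ} {E η : ℝ} {m w : ℂ} (h : Root q E m) (hw : IsM q (zz E η) w)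
    (hη : 0 ≤ η) : ‖w - m‖ ≤ η / m.im := by
  have hq := h.qpos
  have hqr : (1 : ℝ) ≤ q := by exact_mod_cast hq
  have e1 := h.eqn
  have e2 := hw.eq
  have hm := h.im_pos
  have hw' := hw.im_pos
  have h0 := h.ne_zero
  have hE := h.E_eq
  have e3 : (w - m) * ((q : ℂ) * w - m⁻¹) = -((η : ℂ) * I * w) := by
    unfold zz at e2
    rw [hE] at e2
    have : m * m⁻¹ = 1 := mul_inv_cancel₀ h0
    linear_combination e2 + this
  have h3 : m.im ≤ ‖(q : ℂ) * w - m⁻¹‖ := by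
    have h4 : ((q : ℂ) * w - m⁻¹).im = q * w.im + q * m.im := by
      rw [Complex.sub_im, h.inv_im, Complex.mul_im]
      simp
    calc m.im ≤ q * w.im + q * m.im := by nlinarith
      _ = ((q : ℂ) * w - m⁻¹).im := h4.symm
      _ ≤ _ := (le_abs_self _).trans (Complex.abs_im_le_norm _)
  have h5 : ‖w - m‖ * ‖(q : ℂ) * w - m⁻¹‖ = η * ‖w‖ := by
    rw [← norm_mul, e3, norm_neg, norm_mul, norm_mul, Complex.norm_I, mul_one,
      Complex.norm_real, Real.norm_of_nonneg hη]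
  have h6 := hw.norm_le_one (by simpa using hη) hq
  rw [le_div_iff₀ hm]
  calc ‖w - m‖ * m.im ≤ ‖w - m‖ * ‖(q : ℂ) * w - m⁻¹‖ := by gcongr
    _ = η * ‖w‖ := h5
    _ ≤ η * 1 := by gcongr
    _ = η := mul_one _

lemma T_sq_le {q : ℕ} {E η : ℝ} {m w u : ℂ} (h : Root q E m) (hw : IsM q (zz E η) w)
    (hη : 0 ≤ η) (hu : 0 ≤ u.im) :
    ‖T m u‖ ^ 2 ≤ 2 * ((q + 1) / m.im ^ 2) ^ 2 * (‖u - w‖ ^ 2 + (η / m.im) ^ 2) := by
  have h1 : ‖T m u‖ ≤ (q + 1) / m.im ^ 2 * ‖u - m‖ := by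
    have := h.T_lip hu h.im_pos.le
    have h0 : T m m = 0 := by unfold T; simp
    rwa [h0, sub_zero] at this
  have h2 : ‖u - m‖ ≤ ‖u - w‖ + η / m.im := by
    calc ‖u - m‖ = ‖(u - w) + (w - m)‖ := by ring_nf
      _ ≤ ‖u - w‖ + ‖w - m‖ := norm_add_le _ _
      _ ≤ _ := by
        have := norm_sub_root_le h hw hη
        gcongr
  have hm := h.im_pos
  have h3 : 0 ≤ η / m.im := by positivity
  calc ‖T m u‖ ^ 2 ≤ ((q + 1) / m.im ^ 2 * (‖u - w‖ + η / m.im)) ^ 2 := by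
        apply pow_le_pow_left₀ (norm_nonneg _)
        exact h1.trans (by gcongr)
    _ = ((q + 1) / m.im ^ 2) ^ 2 * (‖u - w‖ + η / m.im) ^ 2 := by ring
    _ ≤ ((q + 1) / m.im ^ 2) ^ 2 * (2 * (‖u - w‖ ^ 2 + (η / m.im) ^ 2)) := by
        gcongr
        nlinarith [sq_nonneg (‖u - w‖ - η / m.im)]
    _ = _ := by ring

/-- base scale: `wavg ‖T m h‖²` is controlled by `wavg ‖h - m(z)‖²` and `η²`. -/
lemma wavg_T_le {ι : Type*} [Fintype ι] {q : ℕ} {E η : ℝ} {m w : ℂ} (h : Root q E m)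
    (hw : IsM q (zz E η) w) (hη : 0 ≤ η) {p : ι → ℝ} (hp : ∀ i, 0 ≤ p i) (hp1 : ∑ i, p i = 1)
    {u : ι → ℂ} (hu : ∀ i, 0 ≤ (u i).im) :
    wavg p (fun i => ‖T m (u i)‖ ^ 2) ≤
      2 * ((q + 1) / m.im ^ 2) ^ 2 * (wavg p (fun i => ‖u i - w‖ ^ 2) + (η / m.im) ^ 2) := by
  unfold wavg
  calc ∑ i, p i * ‖T m (u i)‖ ^ 2
      ≤ ∑ i, p i * (2 * ((q + 1) / m.im ^ 2) ^ 2 * (‖u i - w‖ ^ 2 + (η / m.im) ^ 2)) := by
        refine Finset.sum_le_sum fun i _ => ?_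
        have := hp i
        have := T_sq_le h hw hη (hu i)
        gcongr
    _ = 2 * ((q + 1) / m.im ^ 2) ^ 2 *
          ((∑ i, p i * ‖u i - w‖ ^ 2) + (∑ i, p i) * (η / m.im) ^ 2) := by
        rw [Finset.sum_mul, ← Finset.sum_add_distrib, Finset.mul_sum]
        refine Finset.sum_congr rfl fun i _ => ?_
        ring
    _ = _ := by rw [hp1, one_mul]

/-- `mE d E` is the root for a bulk energy. -/
lemma mE_root {d : ℕ} (hd : 2 ≤ d) {E : ℝ} (hE : E ^ 2 < 4 * ((d : ℝ) - 1)) :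
    Root (d - 1) E (mE d E) := by
  have hd1 : (((d - 1 : ℕ)) : ℂ) = (d : ℂ) - 1 := cast_pred (by omega)
  have hd2 : (((d - 1 : ℕ)) : ℝ) = (d : ℝ) - 1 := by
    push_cast [Nat.cast_sub (by omega : 1 ≤ d)]; ring
  have hpos : (0 : ℝ) < (d : ℝ) - 1 := by
    have : (2 : ℝ) ≤ d := by exact_mod_cast hd
    linarith
  have hne : (d : ℂ) - 1 ≠ 0 := by
    have : ((((d : ℝ) - 1 : ℝ)) : ℂ) ≠ 0 := by exact_mod_cast hpos.ne'
    simpa using this
  set s : ℝ := Real.sqrt (4 * ((d : ℝ) - 1) - E ^ 2) with hs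
  have hspos : 0 < s := Real.sqrt_pos.2 (by linarith)
  have hs2 : ((s : ℂ)) ^ 2 = 4 * ((d : ℂ) - 1) - (E : ℂ) ^ 2 := by
    have : s ^ 2 = 4 * ((d : ℝ) - 1) - E ^ 2 := Real.sq_sqrt (by linarith)
    have h2 := congrArg (fun r : ℝ => (r : ℂ)) this
    push_cast at h2
    exact h2
  have hdef : mE d E = (-(E : ℂ) + (s : ℂ) * I) / (2 * ((d : ℂ) - 1)) := rfl
  refine ⟨?_, ?_⟩
  · rw [hd1, hdef]
    field_simp
    linear_combination (-1 : ℂ) * hs2 + (s : ℂ) ^ 2 * I_sq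
  · rw [hdef]
    have e : (-(E : ℂ) + (s : ℂ) * I) / (2 * ((d : ℂ) - 1)) =
        (-(E : ℂ) + (s : ℂ) * I) / ((2 * ((d : ℝ) - 1) : ℝ) : ℂ) := by
      push_cast
      rfl
    rw [e, Complex.div_ofReal_im]
    apply div_pos _ (by positivity)
    simp
    exact hspos

lemma mE_im {d : ℕ} {E : ℝ} :
    (mE d E).im = Real.sqrt (4 * ((d : ℝ) - 1) - E ^ 2) / (2 * ((d : ℝ) - 1)) := by
  have e : mE d E = (-(E : ℂ) + (Real.sqrt (4 * ((d : ℝ) - 1) - E ^ 2) : ℂ) * I) /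
      ((2 * ((d : ℝ) - 1) : ℝ) : ℂ) := by
    unfold mE
    push_cast
    rfl
  rw [e, Complex.div_ofReal_im]
  simp

lemma hc_im_nonneg {n : ℕ} (G : SimpleGraph (Fin n)) {z : ℂ} (hz : 0 < z.im)
    (e : Fin n × Fin n) : 0 ≤ (hc G z e).im := resD_im_nonneg (adj_isSymm G) _ _ hz

/-- **Base scale for graphs**: the functional `wavg ‖T m h‖²` at `E + iη`. -/
theorem base_T_graph {d : ℕ} (hd : 2 ≤ d) {η R : ℝ} (hη : 0 < η) {n : ℕ} (hn : n ≠ 0)
    {G : SimpleGraph (Fin n)} (hG : G ∈ regularGraphs n d) {E : ℝ} (hE : |E| ≤ R) {m : ℂ}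
    (h : Root (d - 1) E m) :
    wavg (ew d G) (fun e => ‖T m (hc G (zz E η) e)‖ ^ 2) ≤
      2 * (((d - 1 : ℕ) + 1) / m.im ^ 2) ^ 2 *
        (C8c d η R * |dfct d G (zz E η) (C8F d η R E)| + (η / m.im) ^ 2) := by
  have hz : 0 < (zz E η).im := by simpa using hη
  refine (wavg_T_le h (mz_isM (by omega) hz) hη.le (ew_nonneg G) (ew_sum hG hn (by omega))
    (fun e => hc_im_nonneg G hz e)).trans ?_
  gcongr
  exact C8_graph hd hη hn hG hE

end P156.H613
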