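import Vale.Agent.P156.H653.Defs
import Vale.Agent.P156.H877.Gk
import Mathlib.MeasureTheory.Measure.Haar.InnerProductSpace

/-!
Flat coordinates on the star space: the volume and the standard Gaussian.
-/

open MeasureTheory ProbabilityTheory Matrix
open scoped ENNReal Kronecker
open Vale.Agent.P156.H849 Vale.Agent.P156.H877 Vale.Agent.P156.H653

noncomputable section

namespace P156.H613

/-! ### splitting off the centre -/

section Split

variable {L κ : Type*} [Fintype L] [Fintype κ]

/-- glue the centre and the leaves to a flat vector -/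
def unsplit (y : (κ → ℝ) × (L → κ → ℝ)) : Option L × κ → ℝ :=
  fun p => (p.1.elim (y.1 p.2) fun j => y.2 j p.2)

/-- split a flat vector into the centre and the leaves -/
def split (x : Option L × κ → ℝ) : (κ → ℝ) × (L → κ → ℝ) :=
  (fun a => x (none, a), fun j a => x (some j, a))

omit [Fintype L] [Fintype κ] in
lemma split_unsplit (y : (κ → ℝ) × (L → κ → ℝ)) : split (unsplit y) = y := rfl

omit [Fintype L] [Fintype κ] in
lemma unsplit_split (x : Option L × κ → ℝ) : unsplit (split x) = x := by
  funext p
  obtain ⟨o, a⟩ := p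
  cases o <;> rfl

omit [Fintype L] [Fintype κ] in
lemma measurable_split : Measurable (split : (Option L × κ → ℝ) → _) := by
  unfold split
  fun_prop

omit [Fintype L] [Fintype κ] in
lemma measurable_unsplit : Measurable (unsplit : (κ → ℝ) × (L → κ → ℝ) → _) := by
  rw [measurable_pi_iff]
  rintro ⟨o, a⟩
  cases o with
  | none =>
    show Measurable fun y : (κ → ℝ) × (L → κ → ℝ) => y.1 a
    fun_prop
  | some j =>
    show Measurable fun y : (κ → ℝ) × (L → κ → ℝ) => y.2 j a
    fun_prop

/-- the splitting as a measurable equivalence -/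
def splitE (L κ : Type*) : (Option L × κ → ℝ) ≃ᵐ (κ → ℝ) × (L → κ → ℝ) where
  toFun := split
  invFun := unsplit
  left_inv := unsplit_split
  right_inv := split_unsplit
  measurable_toFun := measurable_split
  measurable_invFun := measurable_unsplit

lemma map_unsplit (μ : Measure ℝ) [SigmaFinite μ] :
    ((Measure.pi fun _ : κ => μ).prod
      (Measure.pi fun _ : L => Measure.pi fun _ : κ => μ)).map unsplit =
      Measure.pi fun _ : Option L × κ => μ := by
  symm
  refine Measure.pi_eq fun s hs => ?_
  rw [Measure.map_apply measurable_unsplit (MeasurableSet.univ_pi hs)]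
  have hpre : unsplit ⁻¹' (Set.univ.pi s) =
      (Set.univ.pi fun a : κ => s (none, a)) ×ˢ
        (Set.univ.pi fun j : L => Set.univ.pi fun a : κ => s (some j, a)) := by
    ext y
    simp only [Set.mem_preimage, Set.mem_univ_pi, Set.mem_prod]
    constructor
    · intro h
      exact ⟨fun a => h (none, a), fun j a => h (some j, a)⟩
    · rintro ⟨h1, h2⟩ ⟨o, a⟩
      cases o with
      | none => exact h1 a
      | some j => exact h2 j a
  rw [hpre, Measure.prod_prod, Measure.pi_pi, Measure.pi_pi]
  simp_rw [Measure.pi_pi]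
  rw [Fintype.prod_prod_type, Fintype.prod_option]

lemma map_split (μ : Measure ℝ) [SigmaFinite μ] :
    (Measure.pi fun _ : Option L × κ => μ).map split =
      (Measure.pi fun _ : κ => μ).prod (Measure.pi fun _ : L => Measure.pi fun _ : κ => μ) := by
  rw [← map_unsplit, Measure.map_map measurable_split measurable_unsplit]
  have : (split ∘ unsplit : (κ → ℝ) × (L → κ → ℝ) → _) = id := by
    funext y; rfl
  rw [this, Measure.map_id]

end Split

/-! ### the star space -/

variable (q k : ℕ)

/-- componentwise `toLp` -/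
def lpE : (Fin k → ℝ) × (Fin q → Fin k → ℝ) ≃ᵐ StarSp q k :=
  (MeasurableEquiv.toLp 2 (Fin k → ℝ)).prodCongr
    (MeasurableEquiv.piCongrRight fun _ : Fin q => MeasurableEquiv.toLp 2 (Fin k → ℝ))

/-- flat coordinates on the star space -/
def starE : (Option (Fin q) × Fin k → ℝ) ≃ᵐ StarSp q k := (splitE (Fin q) (Fin k)).trans (lpE q k)

lemma starE_apply (x : Option (Fin q) × Fin k → ℝ) :
    starE q k x = (WithLp.toLp 2 fun a => x (none, a), fun j => WithLp.toLp 2 fun a => x (some j, a)) :=
  rfl

lemma map_lpE_volume :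
    ((volume : Measure (Fin k → ℝ)).prod (Measure.pi fun _ : Fin q => (volume : Measure (Fin k → ℝ)))).map
      (lpE q k) = volume := by
  have h1 : MeasurePreserving (@WithLp.toLp 2 (Fin k → ℝ)) := PiLp.volume_preserving_toLp (Fin k)
  have h2 : MeasurePreserving (fun (y : Fin q → Fin k → ℝ) i => WithLp.toLp 2 (y i))
      (Measure.pi fun _ : Fin q => (volume : Measure (Fin k → ℝ)))
      (Measure.pi fun _ : Fin q => (volume : Measure (Ek k))) :=
    measurePreserving_pi _ _ fun _ => h1
  exact (h1.prod h2).map_eq

lemma volume_starE : (volume : Measure (Option (Fin q) × Fin k → ℝ)).map (starE q k) = volume := by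
  have : (⇑(starE q k) : (Option (Fin q) × Fin k → ℝ) → StarSp q k) = (lpE q k) ∘ split := rfl
  rw [this, ← Measure.map_map (lpE q k).measurable measurable_split, volume_pi, map_split]
  have h := map_lpE_volume q k
  rwa [volume_pi] at h

lemma gauss_starE : (Vale.Agent.P156.H877.sg (Option (Fin q) × Fin k)).map (starE q k) =
    (stdGaussian (Ek k)).prod (Measure.pi fun _ : Fin q => stdGaussian (Ek k)) := by
  have : (⇑(starE q k) : (Option (Fin q) × Fin k → ℝ) → StarSp q k) = (lpE q k) ∘ split := rfl
  rw [this, ← Measure.map_map (lpE q k).measurable measurable_split, Vale.Agent.P156.H877.sg, map_split]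
  have h1 : MeasurePreserving (@WithLp.toLp 2 (Fin k → ℝ))
      (Measure.pi fun _ => gaussianReal 0 1) (stdGaussian (Ek k)) :=
    ⟨(MeasurableEquiv.toLp 2 (Fin k → ℝ)).measurable, map_pi_eq_stdGaussian⟩
  have h2 : MeasurePreserving (fun (y : Fin q → Fin k → ℝ) i => WithLp.toLp 2 (y i))
      (Measure.pi fun _ : Fin q => Measure.pi fun _ : Fin k => gaussianReal 0 1)
      (Measure.pi fun _ : Fin q => stdGaussian (Ek k)) :=
    measurePreserving_pi _ _ fun _ => h1
  exact (h1.prod h2).map_eq

/-- flat coordinates on the edge space -/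
def edgeE : (Option (Fin 1) × Fin k → ℝ) ≃ᵐ Ek k × Ek k :=
  (starE 1 k).trans ((MeasurableEquiv.refl _).prodCongr (MeasurableEquiv.funUnique (Fin 1) (Ek k)))

lemma edgeE_apply (x : Option (Fin 1) × Fin k → ℝ) :
    edgeE k x = (WithLp.toLp 2 fun a => x (none, a), WithLp.toLp 2 fun a => x (some 0, a)) :=
  rfl

lemma volume_edgeE : (volume : Measure (Option (Fin 1) × Fin k → ℝ)).map (edgeE k) = volume := by
  have : (⇑(edgeE k) : (Option (Fin 1) × Fin k → ℝ) → Ek k × Ek k) =
      (Prod.map id (MeasurableEquiv.funUnique (Fin 1) (Ek k))) ∘ (starE 1 k) := rfl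
  rw [this, ← Measure.map_map (by fun_prop) (starE 1 k).measurable, volume_starE]
  exact ((MeasurePreserving.id _).prod (volume_preserving_funUnique (Fin 1) (Ek k))).map_eq

/-! ### entropy -/

section Ent

variable {ι : Type*} [Fintype ι] [DecidableEq ι] {X : Measure (ι → ℝ)} [IsProbabilityMeasure X]

lemma dent_sm {S : Matrix ι ι ℝ} (hS : S.PosDef) : dent (sm X S) = hh X S := by
  have hac : sm X S ≪ volume := withDensity_absolutelyContinuous _ _
  have h1 : (sm X S).rnDeriv volume =ᵐ[sm X S] fun z => ENNReal.ofReal (dens X S z) :=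
    hac (Measure.rnDeriv_withDensity _ (continuous_dens hS).measurable.ennreal_ofReal)
  unfold dent hh
  have h2 : ∫ x, Real.log (((sm X S).rnDeriv volume x).toReal) ∂(sm X S) =
      ∫ x, Real.log (dens X S x) ∂(sm X S) := by
    refine integral_congr_ae ?_
    filter_upwards [h1] with x hx
    rw [hx, ENNReal.toReal_ofReal (dens_pos hS x).le]
  rw [h2, integral_sm hS, ← integral_neg]
  refine integral_congr_ae (ae_of_all _ fun z => ?_)
  simp only [Real.negMulLog]
  ring

lemma dent_map {V : Type*} [MeasureSpace V] [SigmaFinite (volume : Measure V)] {W : Type*}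
    [MeasureSpace W] (e : V ≃ᵐ W) (he : (volume : Measure V).map e = volume) {ν : Measure V}
    [SigmaFinite ν] (hν : ν ≪ volume) : dent (ν.map e) = dent ν := by
  unfold dent
  rw [e.measurableEmbedding.integral_map]
  congr 1
  refine integral_congr_ae ?_
  have h := e.measurableEmbedding.rnDeriv_map ν (volume : Measure V)
  rw [he] at h
  filter_upwards [hν h] with x hx
  rw [hx]

end Ent

end P156.H613
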