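import Vale.Agent.P156.H613.Root
import Mathlib.Algebra.Order.Chebyshev

/-!
Part C8: the recursion `h ↦ -1/(z + Σ h_k)` contracts the functional
`phi_m(h) = |h - m|²/(Im h Im m)` at `m = m(z)`, `Im z > 0`.
-/

open Complex
open scoped ComplexConjugate

namespace P156.H613

/-- hyperbolic distance to `m` : `2 (cosh d - 1)`. -/
noncomputable def phi (m h : ℂ) : ℝ := ‖h - m‖ ^ 2 / (h.im * m.im)

lemma phi_nonneg {m h : ℂ} (hm : 0 < m.im) (hh : 0 < h.im) : 0 ≤ phi m h := by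
  unfold phi; positivity

lemma phi_eq_cay {m h : ℂ} (hm : 0 < m.im) (hh : 0 < h.im) :
    phi m h = 4 * ‖cay m h‖ ^ 2 / (1 - ‖cay m h‖ ^ 2) := by
  have h1 := normSq_sub_conj m h
  have h2 := norm_sub_conj_pos hm hh.le
  unfold phi cay
  rw [norm_div, div_pow]
  have h3 : ‖h - conj m‖ ^ 2 ≠ 0 := by positivity
  have h4 : 1 - ‖h - m‖ ^ 2 / ‖h - conj m‖ ^ 2 = 4 * (h.im * m.im) / ‖h - conj m‖ ^ 2 := by
    field_simp
    linarith
  rw [h4]
  field_simp

lemma phi_neg_inv {m g : ℂ} (hm : 0 < m.im) (hg : 0 < g.im) :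
    phi m (-1 / g) = phi (-1 / m) g := by
  have hm0 : m ≠ 0 := by rintro rfl; simp at hm
  rw [phi_eq_cay hm (im_neg_inv_pos hg), phi_eq_cay (im_neg_inv_pos hm) hg, cay_neg_inv hm hg,
    norm_mul, norm_div_conj_self hm0, one_mul]

/-- The contraction. -/
lemma phi_contract {q : ℕ} {z m : ℂ} (hM : IsM q z m) (hz : 0 < z.im) (h : Fin q → ℂ)
    (hh : ∀ k, 0 < (h k).im) :
    phi m (-1 / (z + ∑ k, h k)) ≤ m.im / (z.im + q * m.im) * ∑ k, phi m (h k) := by
  have hm := hM.im_pos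
  have himg : (z + ∑ k, h k).im = z.im + ∑ k, (h k).im := by
    rw [Complex.add_im, Complex.im_sum]
  have hsum : 0 ≤ ∑ k, (h k).im := Finset.sum_nonneg fun k _ => (hh k).le
  have hg : 0 < (z + ∑ k, h k).im := by rw [himg]; linarith
  rw [phi_neg_inv hm hg, hM.neg_inv]
  unfold phi
  rw [IsM.im_add, himg]
  have e1 : z + ∑ k, h k - (z + q * m) = ∑ k, (h k - m) := by
    rw [Finset.sum_sub_distrib]
    simp
  rw [e1]
  have cs : (∑ k, ‖h k - m‖) ^ 2 ≤
      (∑ k, (h k).im) * ∑ k, ‖h k - m‖ ^ 2 / (h k).im := by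
    apply Finset.sum_sq_le_sum_mul_sum_of_sq_le_mul
    · intro k _; exact (hh k).le
    · intro k _
      have := hh k
      positivity
    · intro k _
      have := (hh k).ne'
      apply le_of_eq
      field_simp
  have h1 : ‖∑ k, (h k - m)‖ ^ 2 ≤ (∑ k, (h k).im) * ∑ k, ‖h k - m‖ ^ 2 / (h k).im := by
    refine le_trans ?_ cs
    exact pow_le_pow_left₀ (norm_nonneg _) (norm_sum_le _ _) 2
  have h2 : ∑ k, ‖h k - m‖ ^ 2 / (h k).im = m.im * ∑ k, ‖h k - m‖ ^ 2 / ((h k).im * m.im) := by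
    rw [Finset.mul_sum]
    refine Finset.sum_congr rfl fun k _ => ?_
    have := (hh k).ne'
    field_simp
  rw [h2] at h1
  have hp : 0 ≤ ∑ k, ‖h k - m‖ ^ 2 / ((h k).im * m.im) :=
    Finset.sum_nonneg fun k _ => by
      have := hh k
      positivity
  have hq : (0 : ℝ) ≤ q := by positivity
  rw [div_le_iff₀ (by positivity)]
  calc ‖∑ k, (h k - m)‖ ^ 2
      ≤ (∑ k, (h k).im) * (m.im * ∑ k, ‖h k - m‖ ^ 2 / ((h k).im * m.im)) := h1
    _ ≤ (z.im + ∑ k, (h k).im) * (m.im * ∑ k, ‖h k - m‖ ^ 2 / ((h k).im * m.im)) := by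
        gcongr
        linarith
    _ = _ := by
        field_simp

section Avg

variable {ι : Type*} [Fintype ι]

/-- sum over tuples of a product -/
lemma tuple_sum_prod {q : ℕ} (F : Fin q → ι → ℝ) :
    ∑ t : Fin q → ι, ∏ l, F l (t l) = ∏ l, ∑ i, F l i := by
  classical
  rw [Finset.prod_univ_sum, Fintype.piFinset_univ]

lemma tuple_sum_one {p : ι → ℝ} (hp1 : ∑ i, p i = 1) (q : ℕ) :
    ∑ t : Fin q → ι, ∏ l, p (t l) = 1 := by
  rw [tuple_sum_prod (fun _ => p)]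
  simp [hp1]

lemma tuple_sum_single {p : ι → ℝ} (hp1 : ∑ i, p i = 1) {q : ℕ} (f : ι → ℝ) (k : Fin q) :
    ∑ t : Fin q → ι, (∏ l, p (t l)) * f (t k) = ∑ i, p i * f i := by
  classical
  have e : ∀ t : Fin q → ι, (∏ l, p (t l)) * f (t k) =
      ∏ l, (p (t l) * (if l = k then f (t l) else 1)) := by
    intro t
    rw [Finset.prod_mul_distrib, Finset.prod_ite_eq' Finset.univ k (fun l => f (t l))]
    simp
  simp_rw [e]
  rw [tuple_sum_prod (fun l i => p i * (if l = k then f i else 1))]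
  have e2 : ∀ l : Fin q, (∑ i, p i * (if l = k then f i else 1)) =
      if l = k then ∑ i, p i * f i else 1 := by
    intro l
    split_ifs
    · rfl
    · simp [hp1]
  simp_rw [e2]
  rw [Finset.prod_ite_eq' Finset.univ k]
  simp

/-- averaged contraction -/
lemma phi_avg_contract {q : ℕ} {z m : ℂ} (hM : IsM q z m) (hz : 0 < z.im)
    {p : ι → ℝ} (hp : ∀ i, 0 ≤ p i) (hp1 : ∑ i, p i = 1) (h : ι → ℂ) (hh : ∀ i, 0 < (h i).im) :
    ∑ t : Fin q → ι, (∏ l, p (t l)) * phi m (-1 / (z + ∑ k, h (t k))) ≤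
      q * m.im / (z.im + q * m.im) * ∑ i, p i * phi m (h i) := by
  have hm := hM.im_pos
  calc ∑ t : Fin q → ι, (∏ l, p (t l)) * phi m (-1 / (z + ∑ k, h (t k)))
      ≤ ∑ t : Fin q → ι, (∏ l, p (t l)) *
          (m.im / (z.im + q * m.im) * ∑ k, phi m (h (t k))) := by
        refine Finset.sum_le_sum fun t _ => ?_
        have : 0 ≤ ∏ l, p (t l) := Finset.prod_nonneg fun l _ => hp _
        gcongr
        exact phi_contract hM hz (fun k => h (t k)) (fun k => hh _)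
    _ = m.im / (z.im + q * m.im) *
          ∑ k : Fin q, ∑ t : Fin q → ι, (∏ l, p (t l)) * phi m (h (t k)) := by
        rw [Finset.sum_comm, Finset.mul_sum]
        refine Finset.sum_congr rfl fun t _ => ?_
        rw [← Finset.mul_sum]
        ring
    _ = m.im / (z.im + q * m.im) * (q * ∑ i, p i * phi m (h i)) := by
        congr 1
        simp_rw [tuple_sum_single hp1 (fun i => phi m (h i))]
        simp
    _ = _ := by ring

end Avg

/-! ### truncation -/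

/-- truncated version of `s ↦ 4s/(1-s)`; equal to `min (4s/(1-s)) M` on `[0,1)` -/
noncomputable def trunc (M s : ℝ) : ℝ := 4 * min s (M / (4 + M)) / (1 - min s (M / (4 + M)))

lemma trunc_aux {M s : ℝ} (hM : 0 < M) : 4 / (4 + M) ≤ 1 - min s (M / (4 + M)) := by
  have h1 : min s (M / (4 + M)) ≤ M / (4 + M) := min_le_right _ _
  have h2 : M / (4 + M) = 1 - 4 / (4 + M) := by field_simp; ring
  linarith

lemma trunc_nonneg {M s : ℝ} (hM : 0 < M) (hs : 0 ≤ s) : 0 ≤ trunc M s := by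
  unfold trunc
  have h1 := trunc_aux (s := s) hM
  have h2 : 0 < 4 / (4 + M) := by positivity
  have h3 : 0 ≤ min s (M / (4 + M)) := le_min hs (by positivity)
  have h4 : 0 < 1 - min s (M / (4 + M)) := by linarith
  positivity

lemma trunc_le {M s : ℝ} (hM : 0 < M) : trunc M s ≤ M := by
  unfold trunc
  have h1 := trunc_aux (s := s) hM
  have h2 : 0 < 4 / (4 + M) := by positivity
  have h4 : 0 < 1 - min s (M / (4 + M)) := by linarith
  rw [div_le_iff₀ h4]
  have h5 : min s (M / (4 + M)) ≤ M / (4 + M) := min_le_right _ _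
  have h6 : min s (M / (4 + M)) * (4 + M) ≤ M := by
    rwa [le_div_iff₀ (by positivity)] at h5
  linarith

lemma trunc_eq {M s : ℝ} (hM : 0 < M) (hs1 : s < 1) (h : 4 * s / (1 - s) ≤ M) :
    trunc M s = 4 * s / (1 - s) := by
  have h1 : s ≤ M / (4 + M) := by
    rw [le_div_iff₀ (by positivity)]
    rw [div_le_iff₀ (by linarith)] at h
    linarith
  unfold trunc
  rw [min_eq_left h1]

lemma trunc_lip {M s s' : ℝ} (hM : 0 < M) :
    |trunc M s - trunc M s'| ≤ (4 + M) ^ 2 / 4 * |s - s'| := by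
  unfold trunc
  have h1 := trunc_aux (s := s) hM
  have h1' := trunc_aux (s := s') hM
  have h2 : 0 < 4 / (4 + M) := by positivity
  have hlip : |min s (M / (4 + M)) - min s' (M / (4 + M))| ≤ |s - s'| := by
    have := abs_min_sub_min_le_max s (M / (4 + M)) s' (M / (4 + M))
    simpa using this
  set t := min s (M / (4 + M))
  set t' := min s' (M / (4 + M))
  have h4 : 0 < 1 - t := by linarith
  have h4' : 0 < 1 - t' := by linarith
  have e : 4 * t / (1 - t) - 4 * t' / (1 - t') = 4 * (t - t') / ((1 - t) * (1 - t')) := by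
    field_simp
    ring
  rw [e, abs_div, abs_mul, abs_of_pos (mul_pos h4 h4'), abs_of_pos (by norm_num : (0 : ℝ) < 4),
    div_le_iff₀ (mul_pos h4 h4')]
  have h5 : 4 / (4 + M) * (4 / (4 + M)) ≤ (1 - t) * (1 - t') := by gcongr
  calc 4 * |t - t'| ≤ 4 * |s - s'| := by gcongr
    _ = (4 + M) ^ 2 / 4 * |s - s'| * (4 / (4 + M) * (4 / (4 + M))) := by
        field_simp
    _ ≤ (4 + M) ^ 2 / 4 * |s - s'| * ((1 - t) * (1 - t')) := by gcongr

lemma abs_sq_sub_sq_le {a b : ℝ} (ha : 0 ≤ a) (ha1 : a ≤ 1) (hb : 0 ≤ b) (hb1 : b ≤ 1) :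
    |a ^ 2 - b ^ 2| ≤ 2 * |a - b| := by
  have : a ^ 2 - b ^ 2 = (a + b) * (a - b) := by ring
  rw [this, abs_mul, abs_of_nonneg (by positivity)]
  gcongr
  linarith

lemma trunc_cay_lip {M : ℝ} (hM : 0 < M) {m h h' : ℂ} (hm : 0 < m.im) (hh : 0 < h.im)
    (hh' : 0 < h'.im) :
    |trunc M (‖cay m h‖ ^ 2) - trunc M (‖cay m h'‖ ^ 2)| ≤ (4 + M) ^ 2 / m.im * ‖h - h'‖ := by
  calc |trunc M (‖cay m h‖ ^ 2) - trunc M (‖cay m h'‖ ^ 2)|
      ≤ (4 + M) ^ 2 / 4 * |‖cay m h‖ ^ 2 - ‖cay m h'‖ ^ 2| := trunc_lip hM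
    _ ≤ (4 + M) ^ 2 / 4 * (2 * |‖cay m h‖ - ‖cay m h'‖|) := by
        gcongr
        exact abs_sq_sub_sq_le (norm_nonneg _) (norm_cay_le_one hm hh.le) (norm_nonneg _)
          (norm_cay_le_one hm hh'.le)
    _ ≤ (4 + M) ^ 2 / 4 * (2 * ‖cay m h - cay m h'‖) := by
        gcongr
        exact abs_norm_sub_norm_le _ _
    _ ≤ (4 + M) ^ 2 / 4 * (2 * (2 / m.im * ‖h - h'‖)) := by
        gcongr
        exact norm_cay_sub_le hm hh.le hh'.le
    _ = _ := by ring

lemma trunc_cay_neg_inv {M : ℝ} {m g : ℂ} (hm : 0 < m.im) (hg : 0 < g.im) :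
    trunc M (‖cay m (-1 / g)‖ ^ 2) = trunc M (‖cay (-1 / m) g‖ ^ 2) := by
  have hm0 : m ≠ 0 := by rintro rfl; simp at hm
  rw [cay_neg_inv hm hg, norm_mul, norm_div_conj_self hm0, one_mul]

lemma phi_eq_trunc {M : ℝ} (hM : 0 < M) {m h : ℂ} (hm : 0 < m.im) (hh : 0 < h.im)
    (hb : phi m h ≤ M) : trunc M (‖cay m h‖ ^ 2) = phi m h := by
  rw [phi_eq_cay hm hh] at hb ⊢
  apply trunc_eq hM _ hb
  have := norm_cay_lt_one hm hh
  have h0 := norm_nonneg (cay m h)
  nlinarith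

end P156.H613
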