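import Vale.Agent.P156.H613.FlatStar
import Mathlib.Analysis.Matrix.Order

/-!
Bridge between the entropy functional `Fent` (H653) on the star space and the flat
entropies `hh` (H877).
-/

open MeasureTheory ProbabilityTheory Matrix
open scoped ENNReal Kronecker
open Vale.Agent.P156.H849 Vale.Agent.P156.H877 Vale.Agent.P156.H653

noncomputable section

namespace P156.H613

/-- the star covariance, general degree -/
def SigS (d : ℕ) (lam : ℝ) : Matrix (Option (Fin d)) (Option (Fin d)) ℝ :=
  fun x y => if x = y then 1 else if x = none ∨ y = none then lam / d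
    else (lam ^ 2 - d) / (d * (d - 1))

/-- the matrix of `waveMap` on the sites -/
def waveW (q : ℕ) (lam : ℝ) : Matrix (Option (Fin (q + 1))) (Option (Fin (q + 1))) ℝ :=
  fun x y => x.elim (y.elim 1 fun _ => 0)
    (fun j => y.elim (cc q lam) fun i =>
      (Vale.Agent.P156.H653.sg q lam * Real.sqrt (((q : ℝ) + 1) / q)) * ((if j = i then 1 else 0) - 1 / ((q : ℝ) + 1)))

variable {q : ℕ} {lam : ℝ}

lemma sum_option' {n : ℕ} (f : Option (Fin n) → ℝ) : ∑ x, f x = f none + ∑ j, f (some j) :=
  Fintype.sum_option f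

lemma waveW_mul (hq : 1 ≤ q) (hlam : lam ^ 2 ≤ ((q : ℝ) + 1) ^ 2) :
    waveW q lam * (waveW q lam)ᵀ = SigS (q + 1) lam := by
  have hq0 : (0 : ℝ) < q := by exact_mod_cast hq
  have hd : (0 : ℝ) < (q : ℝ) + 1 := by linarith
  set s : ℝ := Vale.Agent.P156.H653.sg q lam * Real.sqrt (((q : ℝ) + 1) / q) with hs
  have hc : cc q lam ^ 2 ≤ 1 := by
    unfold cc
    rw [div_pow, div_le_one (by positivity)]
    exact hlam
  have hs2 : s ^ 2 = (1 - cc q lam ^ 2) * (((q : ℝ) + 1) / q) := by
    rw [hs, mul_pow, Real.sq_sqrt (by positivity)]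
    unfold Vale.Agent.P156.H653.sg
    rw [Real.sq_sqrt (by linarith)]
  ext x y
  rw [Matrix.mul_apply, sum_option']
  simp only [Matrix.transpose_apply]
  cases x with
  | none =>
    cases y with
    | none => simp [waveW, SigS]
    | some j => simp [waveW, SigS, cc]
  | some j =>
    cases y with
    | none => simp [waveW, SigS, cc]
    | some l =>
      have e0 : waveW q lam (some j) none * waveW q lam (some l) none = cc q lam ^ 2 := by
        simp [waveW, sq]
      have e1 : ∀ i : Fin (q + 1), waveW q lam (some j) (some i) * waveW q lam (some l) (some i) =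
          s ^ 2 * (((if j = i then 1 else 0) - 1 / ((q : ℝ) + 1)) *
            ((if l = i then 1 else 0) - 1 / ((q : ℝ) + 1))) := by
        intro i
        simp only [waveW, Option.elim_some]
        rw [← hs]
        ring
      rw [e0, Finset.sum_congr rfl fun i _ => e1 i, ← Finset.mul_sum]
      have e2 : ∑ i : Fin (q + 1), (((if j = i then (1 : ℝ) else 0) - 1 / ((q : ℝ) + 1)) *
          ((if l = i then 1 else 0) - 1 / ((q : ℝ) + 1))) =
          (if j = l then 1 else 0) - 1 / ((q : ℝ) + 1) := by
        have e3 : ∀ i : Fin (q + 1), (((if j = i then (1 : ℝ) else 0) - 1 / ((q : ℝ) + 1)) *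
          ((if l = i then 1 else 0) - 1 / ((q : ℝ) + 1))) =
            (if j = i then (if l = i then (1 : ℝ) else 0) else 0) -
              1 / ((q : ℝ) + 1) * (if j = i then (1 : ℝ) else 0) -
              1 / ((q : ℝ) + 1) * (if l = i then (1 : ℝ) else 0) +
              (1 / ((q : ℝ) + 1)) ^ 2 := by
          intro i
          split_ifs <;> ring
        rw [Finset.sum_congr rfl fun i _ => e3 i, Finset.sum_add_distrib,
          Finset.sum_sub_distrib, Finset.sum_sub_distrib, ← Finset.mul_sum, ← Finset.mul_sum]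
        simp only [Finset.sum_ite_eq, Finset.mem_univ, if_true, Finset.sum_const,
          Finset.card_univ, Fintype.card_fin, nsmul_eq_mul]
        have : (if l = j then (1 : ℝ) else 0) = if j = l then 1 else 0 := by
          by_cases h : j = l <;> simp [h, eq_comm]
        rw [this]
        push_cast
        field_simp
        ring
      rw [e2, hs2]
      unfold SigS cc
      by_cases h : j = l
      · subst h
        simp only [if_true]
        field_simp
        ring
      · have h' : (some j : Option (Fin (q + 1))) ≠ some l := by simpa using h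
        simp only [if_neg h, if_neg h', reduceCtorEq, or_self, if_false]
        push_cast
        have e4 : (q : ℝ) + 1 - 1 = q := by ring
        rw [e4]
        field_simp
        ring

/-- The flat matrix of the wave. -/
def waveB (q k : ℕ) (lam : ℝ) :
    Matrix (Option (Fin (q + 1)) × Fin k) (Option (Fin (q + 1)) × Fin k) ℝ :=
  waveW q lam ⊗ₖ (1 : Matrix (Fin k) (Fin k) ℝ)

lemma waveB_mul {k : ℕ} (hq : 1 ≤ q) (hlam : lam ^ 2 ≤ ((q : ℝ) + 1) ^ 2) :
    waveB q k lam * (waveB q k lam)ᵀ = SigS (q + 1) lam ⊗ₖ (1 : Matrix (Fin k) (Fin k) ℝ) := by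
  unfold waveB
  rw [← Matrix.kroneckerMap_transpose, ← Matrix.mul_kronecker_mul, waveW_mul hq hlam,
    Matrix.transpose_one, Matrix.one_mul]

lemma waveB_mulVec {k : ℕ} (g : Option (Fin (q + 1)) × Fin k → ℝ) (x : Option (Fin (q + 1)))
    (a : Fin k) : (waveB q k lam *ᵥ g) (x, a) = ∑ y, waveW q lam x y * g (y, a) := by
  unfold waveB Matrix.mulVec dotProduct
  rw [Fintype.sum_prod_type]
  refine Finset.sum_congr rfl fun y _ => ?_
  simp [Matrix.kroneckerMap_apply, Matrix.one_apply]

lemma waveMap_starE {k : ℕ} (g : Option (Fin (q + 1)) × Fin k → ℝ) :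
    waveMap q k lam (starE (q + 1) k g) = starE (q + 1) k (waveB q k lam *ᵥ g) := by
  rw [starE_apply, starE_apply]
  unfold waveMap
  refine Prod.ext ?_ ?_
  · simp only
    congr 1
    funext a
    rw [waveB_mulVec, sum_option']
    simp [waveW]
  · simp only
    funext j
    ext a
    simp only [PiLp.add_apply, PiLp.smul_apply, PiLp.sub_apply, smul_eq_mul]
    rw [waveB_mulVec, sum_option']
    simp only [waveW, Option.elim_some, Option.elim_none]
    have hsum : (∑ i : Fin (q + 1), (WithLp.toLp 2 fun a => g (some i, a) : Ek k)).ofLp a =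
        ∑ i : Fin (q + 1), g (some i, a) := by
      simp
    rw [hsum]
    have e : ∑ i : Fin (q + 1), (Vale.Agent.P156.H653.sg q lam * Real.sqrt (((q : ℝ) + 1) / q)) *
        ((if j = i then 1 else 0) - 1 / ((q : ℝ) + 1)) * g (some i, a) =
        (Vale.Agent.P156.H653.sg q lam * Real.sqrt (((q : ℝ) + 1) / q)) *
          (g (some j, a) - 1 / ((q : ℝ) + 1) * ∑ i : Fin (q + 1), g (some i, a)) := by
      have e1 : ∀ i : Fin (q + 1),
          (Vale.Agent.P156.H653.sg q lam * Real.sqrt (((q : ℝ) + 1) / q)) *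
          ((if j = i then 1 else 0) - 1 / ((q : ℝ) + 1)) * g (some i, a) =
          (Vale.Agent.P156.H653.sg q lam * Real.sqrt (((q : ℝ) + 1) / q)) *
            ((if j = i then g (some i, a) else 0) - 1 / ((q : ℝ) + 1) * g (some i, a)) := by
        intro i
        split_ifs <;> ring
      rw [Finset.sum_congr rfl fun i _ => e1 i, ← Finset.mul_sum, Finset.sum_sub_distrib,
        ← Finset.mul_sum]
      simp
    rw [e]

/-! ### laws -/

section Law

variable {ι ι' κ : Type*} [Fintype ι] [Fintype ι'] [Fintype κ]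

omit [Fintype ι] in
lemma continuous_affine (B : Matrix ι κ ℝ) :
    Continuous fun p : (ι → ℝ) × (κ → ℝ) => p.1 + B *ᵥ p.2 := by fun_prop

/-- A marginal of a smoothed law (the full covariance may be degenerate). -/
lemma map_comp_eq_sm [DecidableEq ι'] {X : Measure (ι → ℝ)} [IsProbabilityMeasure X]
    (B : Matrix ι κ ℝ) (f : ι' → ι) {S : Matrix ι' ι' ℝ} (hS : S.PosDef)
    (hB : B.submatrix f id * (B.submatrix f id)ᵀ = S) :
    ((X.prod (Vale.Agent.P156.H877.sg κ)).map (fun p => p.1 + B *ᵥ p.2)).map (fun z => z ∘ f) =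
      sm (X.map fun x => x ∘ f) S := by
  have hmf : Measurable fun z : ι → ℝ => z ∘ f := by
    have : Continuous fun z : ι → ℝ => z ∘ f := by fun_prop
    exact this.measurable
  have : IsProbabilityMeasure (X.map fun x => x ∘ f) :=
    Measure.isProbabilityMeasure_map hmf.aemeasurable
  have hm := (continuous_affine B).measurable
  have hm2 := (continuous_affine (B.submatrix f id)).measurable
  rw [sm_eq_map (B.submatrix f id) hS hB, Measure.map_map hmf hm]
  have h := Measure.map_prod_map X (Vale.Agent.P156.H877.sg κ) hmf measurable_id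
  rw [Measure.map_id] at h
  rw [h, Measure.map_map hm2 (by fun_prop)]
  rfl

end Law

lemma starE_add_smul {q k : ℕ} (x y : Option (Fin q) × Fin k → ℝ) (r : ℝ) :
    starE q k x + r • starE q k y = starE q k (x + r • y) := rfl

lemma smoothLaw_eq {q k : ℕ} {lam t : ℝ} {X : Measure (Option (Fin (q + 1)) × Fin k → ℝ)}
    [IsProbabilityMeasure X] :
    smoothLaw lam (X.map (starE (q + 1) k)) t =
      ((X.prod (Vale.Agent.P156.H877.sg (Option (Fin (q + 1)) × Fin k))).map
        (fun p => p.1 + (Real.sqrt t • waveB q k lam) *ᵥ p.2)).map (starE (q + 1) k) := by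
  have hmB : Measurable fun g : Option (Fin (q + 1)) × Fin k → ℝ => waveB q k lam *ᵥ g := by
    have : Continuous fun g : Option (Fin (q + 1)) × Fin k → ℝ => waveB q k lam *ᵥ g := by
      fun_prop
    exact this.measurable
  have hmw : Measurable (waveMap q k lam) := by
    unfold waveMap
    fun_prop
  have hw : waveM q k lam = (Vale.Agent.P156.H877.sg (Option (Fin (q + 1)) × Fin k)).map
      (fun g => starE (q + 1) k (waveB q k lam *ᵥ g)) := by
    unfold waveM
    rw [← gauss_starE, Measure.map_map hmw (starE (q + 1) k).measurable]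
    congr 1
    funext g
    exact waveMap_starE g
  have hms : Measurable fun g : Option (Fin (q + 1)) × Fin k → ℝ =>
      starE (q + 1) k (waveB q k lam *ᵥ g) := (starE (q + 1) k).measurable.comp hmB
  have h := Measure.map_prod_map X (Vale.Agent.P156.H877.sg (Option (Fin (q + 1)) × Fin k))
    (starE (q + 1) k).measurable hms
  unfold smoothLaw
  rw [hw, h, Measure.map_map (by fun_prop) (by
    exact ((starE (q + 1) k).measurable.comp measurable_fst).prodMk (hms.comp measurable_snd)),
    Measure.map_map (starE (q + 1) k).measurable (continuous_affine _).measurable]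
  congr 1
  funext p
  simp only [Function.comp_apply, Prod.map]
  rw [starE_add_smul, Matrix.smul_mulVec]

/-- index maps -/
def rmap (q k : ℕ) : Option (Fin q) × Fin k → Option (Fin (q + 1)) × Fin k :=
  Prod.map (Option.map Fin.castSucc) id

/-- index map of the edge -/
def emap (q k : ℕ) : Option (Fin 1) × Fin k → Option (Fin (q + 1)) × Fin k :=
  Prod.map (Option.map fun _ => 0) id

lemma redStar_starE {q k : ℕ} (x : Option (Fin (q + 1)) × Fin k → ℝ) :
    redStar (starE (q + 1) k x) = starE q k (x ∘ rmap q k) := rfl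

lemma edgeP_starE {q k : ℕ} (x : Option (Fin (q + 1)) × Fin k → ℝ) :
    edgeP 0 (starE (q + 1) k x) = edgeE k (x ∘ emap q k) := rfl

lemma sub_kron {q k m : ℕ} {lam t : ℝ} (f : Option (Fin m) → Option (Fin (q + 1))) (hq : 1 ≤ q)
    (hlam : lam ^ 2 ≤ ((q : ℝ) + 1) ^ 2) (ht : 0 ≤ t) :
    (Real.sqrt t • waveB q k lam).submatrix (Prod.map f (id : Fin k → Fin k)) id *
      ((Real.sqrt t • waveB q k lam).submatrix (Prod.map f (id : Fin k → Fin k)) id)ᵀ =
      t • ((SigS (q + 1) lam).submatrix f f ⊗ₖ (1 : Matrix (Fin k) (Fin k) ℝ)) := by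
  have h := waveB_mul (k := k) hq hlam
  have e1 : (Real.sqrt t • waveB q k lam) * (Real.sqrt t • waveB q k lam)ᵀ =
      t • (SigS (q + 1) lam ⊗ₖ (1 : Matrix (Fin k) (Fin k) ℝ)) := by
    rw [Matrix.transpose_smul, Matrix.smul_mul, Matrix.mul_smul, smul_smul,
      Real.mul_self_sqrt ht, h]
  ext x y
  exact congrFun (congrFun e1 (Prod.map f id x)) (Prod.map f id y)

lemma sm_ac {ι : Type*} [Fintype ι] [DecidableEq ι] (X : Measure (ι → ℝ))
    (S : Matrix ι ι ℝ) : sm X S ≪ volume := withDensity_absolutelyContinuous _ _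

/-- **BRIDGE.** -/
theorem fent_eq {q k : ℕ} {lam t : ℝ} (hq : 1 ≤ q) (hlam : lam ^ 2 ≤ ((q : ℝ) + 1) ^ 2)
    (ht : 0 < t) (X : Measure (Option (Fin (q + 1)) × Fin k → ℝ)) [IsProbabilityMeasure X]
    (h1 : ((SigS (q + 1) lam).submatrix (Option.map Fin.castSucc)
      (Option.map (Fin.castSucc : Fin q → Fin (q + 1)))).PosDef)
    (h2 : ((SigS (q + 1) lam).submatrix (Option.map fun _ : Fin 1 => (0 : Fin (q + 1)))
      (Option.map fun _ : Fin 1 => (0 : Fin (q + 1)))).PosDef) :
    Fent lam (X.map (starE (q + 1) k)) t =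
      hh (X.map (· ∘ rmap q k)) (t • ((SigS (q + 1) lam).submatrix (Option.map Fin.castSucc)
        (Option.map (Fin.castSucc : Fin q → Fin (q + 1))) ⊗ₖ (1 : Matrix (Fin k) (Fin k) ℝ))) -
      (((q : ℝ) + 1) / 2) * hh (X.map (· ∘ emap q k))
        (t • ((SigS (q + 1) lam).submatrix (Option.map fun _ : Fin 1 => (0 : Fin (q + 1)))
        (Option.map fun _ : Fin 1 => (0 : Fin (q + 1))) ⊗ₖ (1 : Matrix (Fin k) (Fin k) ℝ))) := by
  have k1 := (h1.kronecker (Matrix.PosDef.one (n := Fin k) (R := ℝ))).smul ht
  have k2 := (h2.kronecker (Matrix.PosDef.one (n := Fin k) (R := ℝ))).smul ht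
  have mr : Measurable (redStar : StarSp (q + 1) k → StarSp q k) := by
    unfold redStar; fun_prop
  have me : Measurable (edgeP 0 : StarSp (q + 1) k → Ek k × Ek k) := by
    unfold edgeP; fun_prop
  have mcr : Measurable fun z : Option (Fin (q + 1)) × Fin k → ℝ => z ∘ rmap q k := by
    have : Continuous fun z : Option (Fin (q + 1)) × Fin k → ℝ => z ∘ rmap q k := by fun_prop
    exact this.measurable
  have mce : Measurable fun z : Option (Fin (q + 1)) × Fin k → ℝ => z ∘ emap q k := by
    have : Continuous fun z : Option (Fin (q + 1)) × Fin k → ℝ => z ∘ emap q k := by fun_prop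
    exact this.measurable
  have p1 : IsProbabilityMeasure (X.map (· ∘ rmap q k)) :=
    Measure.isProbabilityMeasure_map mcr.aemeasurable
  have p2 : IsProbabilityMeasure (X.map (· ∘ emap q k)) :=
    Measure.isProbabilityMeasure_map mce.aemeasurable
  have q1 := isProb_sm (X := X.map (· ∘ rmap q k)) k1
  have q2 := isProb_sm (X := X.map (· ∘ emap q k)) k2
  have e1 : (smoothLaw lam (X.map (starE (q + 1) k)) t).map redStar =
      (sm (X.map (· ∘ rmap q k)) (t • ((SigS (q + 1) lam).submatrix (Option.map Fin.castSucc)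
        (Option.map (Fin.castSucc : Fin q → Fin (q + 1))) ⊗ₖ
          (1 : Matrix (Fin k) (Fin k) ℝ)))).map (starE q k) := by
    rw [smoothLaw_eq, Measure.map_map mr (starE (q + 1) k).measurable,
      ← map_comp_eq_sm (Real.sqrt t • waveB q k lam) (rmap q k) k1 (sub_kron _ hq hlam ht.le),
      Measure.map_map (starE q k).measurable mcr]
    rfl
  have e2 : (smoothLaw lam (X.map (starE (q + 1) k)) t).map (edgeP 0) =
      (sm (X.map (· ∘ emap q k)) (t • ((SigS (q + 1) lam).submatrix
        (Option.map fun _ : Fin 1 => (0 : Fin (q + 1)))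
        (Option.map fun _ : Fin 1 => (0 : Fin (q + 1))) ⊗ₖ
          (1 : Matrix (Fin k) (Fin k) ℝ)))).map (edgeE k) := by
    rw [smoothLaw_eq, Measure.map_map me (starE (q + 1) k).measurable,
      ← map_comp_eq_sm (Real.sqrt t • waveB q k lam) (emap q k) k2 (sub_kron _ hq hlam ht.le),
      Measure.map_map (edgeE k).measurable mce]
    rfl
  unfold Fent
  rw [e1, e2, dent_map _ (volume_starE q k) (sm_ac _ _),
    dent_map _ (volume_edgeE k) (sm_ac _ _), dent_sm k1, dent_sm k2]

end P156.H613
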