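import Mathlib.Analysis.Complex.Basic
import Mathlib.Tactic

/-!
Scalar Cayley transform `cay m h = (h - m)/(h - conj m)` on the upper half plane:
Schwarz-Pick type bounds, Lipschitz bounds.
-/

open Complex
open scoped ComplexConjugate

namespace P156.H613

/-- scalar Cayley transform -/
noncomputable def cay (m h : ℂ) : ℂ := (h - m) / (h - conj m)

lemma sub_conj_ne {m h : ℂ} (hm : 0 < m.im) (hh : 0 ≤ h.im) : h - conj m ≠ 0 := by
  intro h0
  have := congrArg Complex.im h0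
  simp at this
  linarith

lemma im_sub_conj (m h : ℂ) : (h - conj m).im = h.im + m.im := by
  simp

/-- `|h - conj m|² = |h - m|² + 4 Im h Im m` -/
lemma normSq_sub_conj (m h : ℂ) :
    ‖h - conj m‖ ^ 2 = ‖h - m‖ ^ 2 + 4 * (h.im * m.im) := by
  rw [Complex.sq_norm, Complex.sq_norm, Complex.normSq_apply, Complex.normSq_apply]
  simp
  ring

lemma im_le_norm_sub_conj (m h : ℂ) :
    h.im + m.im ≤ ‖h - conj m‖ := by
  rw [← im_sub_conj]
  exact (le_abs_self _).trans (Complex.abs_im_le_norm _)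

lemma norm_sub_conj_pos {m h : ℂ} (hm : 0 < m.im) (hh : 0 ≤ h.im) : 0 < ‖h - conj m‖ :=
  norm_pos_iff.2 (sub_conj_ne hm hh)

/-- `‖h - m‖ ≤ ‖h - conj m‖`. -/
lemma norm_sub_le_norm_sub_conj {m h : ℂ} (hm : 0 < m.im) (hh : 0 ≤ h.im) :
    ‖h - m‖ ≤ ‖h - conj m‖ := by
  have h1 := normSq_sub_conj m h
  have h2 : 0 ≤ h.im * m.im := mul_nonneg hh hm.le
  nlinarith [norm_nonneg (h - m), norm_nonneg (h - conj m)]

lemma norm_cay_le_one {m h : ℂ} (hm : 0 < m.im) (hh : 0 ≤ h.im) : ‖cay m h‖ ≤ 1 := by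
  unfold cay
  rw [norm_div, div_le_one (norm_sub_conj_pos hm hh)]
  exact norm_sub_le_norm_sub_conj hm hh

lemma norm_cay_lt_one {m h : ℂ} (hm : 0 < m.im) (hh : 0 < h.im) : ‖cay m h‖ < 1 := by
  unfold cay
  rw [norm_div, div_lt_one (norm_sub_conj_pos hm hh.le)]
  have h1 := normSq_sub_conj m h
  have h2 : 0 < h.im * m.im := mul_pos hh hm
  nlinarith [norm_nonneg (h - m), norm_nonneg (h - conj m)]

lemma cay_sub {m h h' : ℂ} (hm : 0 < m.im) (hh : 0 ≤ h.im) (hh' : 0 ≤ h'.im) :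
    cay m h - cay m h' =
      (m - conj m) * (h - h') / ((h - conj m) * (h' - conj m)) := by
  unfold cay
  have h1 := sub_conj_ne hm hh
  have h2 := sub_conj_ne hm hh'
  field_simp
  ring

lemma norm_sub_conj_self {m : ℂ} (hm : 0 < m.im) : ‖m - conj m‖ = 2 * m.im := by
  have : m - conj m = ((2 * m.im : ℝ) : ℂ) * I := by
    apply Complex.ext
    · simp
    · simp
      ring
  rw [this, norm_mul, Complex.norm_I, mul_one, Complex.norm_real, Real.norm_of_nonneg (by linarith)]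

lemma norm_cay_sub {m h h' : ℂ} (hm : 0 < m.im) (hh : 0 ≤ h.im) (hh' : 0 ≤ h'.im) :
    ‖cay m h - cay m h'‖ =
      2 * m.im * ‖h - h'‖ / (‖h - conj m‖ * ‖h' - conj m‖) := by
  rw [cay_sub hm hh hh', norm_div, norm_mul, norm_mul, norm_sub_conj_self hm]

/-- Schwarz-Pick: closeness in the hyperbolic metric gives closeness of the Cayley
transforms, whatever the base point. -/
lemma norm_cay_sub_le_of_pick {m h h' : ℂ} (hm : 0 < m.im) (hh : 0 < h.im) (hh' : 0 < h'.im)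
    {δ : ℝ} (hδ : 0 ≤ δ) (hpick : ‖h - h'‖ ^ 2 ≤ δ ^ 2 * (h.im * h'.im)) :
    ‖cay m h - cay m h'‖ ≤ δ / 2 := by
  rw [norm_cay_sub hm hh.le hh'.le]
  have p1 := norm_sub_conj_pos hm hh.le
  have p2 := norm_sub_conj_pos hm hh'.le
  rw [div_le_iff₀ (mul_pos p1 p2)]
  have a1 : 4 * (h.im * m.im) ≤ ‖h - conj m‖ ^ 2 := by
    have := im_le_norm_sub_conj m h
    nlinarith [sq_nonneg (h.im - m.im)]
  have a2 : 4 * (h'.im * m.im) ≤ ‖h' - conj m‖ ^ 2 := by
    have := im_le_norm_sub_conj m h'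
    nlinarith [sq_nonneg (h'.im - m.im)]
  have b1 : 0 ≤ 2 * m.im * ‖h - h'‖ := by positivity
  have b2 : 0 ≤ δ / 2 * (‖h - conj m‖ * ‖h' - conj m‖) := by positivity
  refine (sq_le_sq₀ b1 b2).1 ?_
  calc (2 * m.im * ‖h - h'‖) ^ 2 = 4 * m.im ^ 2 * ‖h - h'‖ ^ 2 := by ring
    _ ≤ 4 * m.im ^ 2 * (δ ^ 2 * (h.im * h'.im)) := by gcongr
    _ = (δ ^ 2 / 4) * ((4 * (h.im * m.im)) * (4 * (h'.im * m.im))) := by ring
    _ ≤ (δ ^ 2 / 4) * (‖h - conj m‖ ^ 2 * ‖h' - conj m‖ ^ 2) := by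
        have : 0 ≤ 4 * (h'.im * m.im) := by positivity
        gcongr
    _ = (δ / 2 * (‖h - conj m‖ * ‖h' - conj m‖)) ^ 2 := by ring

/-- The Cayley transform is Lipschitz on the closed upper half plane. -/
lemma norm_cay_sub_le {m h h' : ℂ} (hm : 0 < m.im) (hh : 0 ≤ h.im) (hh' : 0 ≤ h'.im) :
    ‖cay m h - cay m h'‖ ≤ 2 / m.im * ‖h - h'‖ := by
  rw [norm_cay_sub hm hh hh']
  have p1 := norm_sub_conj_pos hm hh
  have p2 := norm_sub_conj_pos hm hh'
  have q1 : m.im ≤ ‖h - conj m‖ := by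
    have := im_le_norm_sub_conj m h; linarith
  have q2 : m.im ≤ ‖h' - conj m‖ := by
    have := im_le_norm_sub_conj m h'; linarith
  rw [div_le_iff₀ (mul_pos p1 p2)]
  have : m.im * m.im ≤ ‖h - conj m‖ * ‖h' - conj m‖ := by
    gcongr
  calc 2 * m.im * ‖h - h'‖ = 2 / m.im * ‖h - h'‖ * (m.im * m.im) := by
        field_simp
    _ ≤ 2 / m.im * ‖h - h'‖ * (‖h - conj m‖ * ‖h' - conj m‖) := by
        gcongr

/-- The inversion `g ↦ -1/g` in Cayley coordinates. -/
lemma cay_neg_inv {m g : ℂ} (hm : 0 < m.im) (hg : 0 < g.im) :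
    cay m (-1 / g) = m / conj m * cay (-1 / m) g := by
  have hm0 : m ≠ 0 := by rintro rfl; simp at hm
  have hg0 : g ≠ 0 := by rintro rfl; simp at hg
  have hmc : conj m ≠ 0 := by simpa using hm0
  have h1 : (-1 / g) - conj m ≠ 0 := by
    apply sub_conj_ne hm
    rw [neg_div, Complex.neg_im, one_div, Complex.inv_im]
    rw [neg_div, neg_neg]
    have := Complex.normSq_pos.2 hg0
    positivity
  have h2 : g - conj (-1 / m) ≠ 0 := by
    apply sub_conj_ne _ hg.le
    rw [neg_div, Complex.neg_im, one_div, Complex.inv_im]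
    rw [neg_div, neg_neg]
    have := Complex.normSq_pos.2 hm0
    positivity
  have h3 : g - conj (-1 / m) = (conj m * g + 1) / conj m := by
    rw [map_div₀, map_neg, map_one]
    field_simp
    ring
  have h4 : (conj m * g + 1) ≠ 0 := by
    intro h0
    apply h2
    rw [h3, h0, zero_div]
  unfold cay
  have h5 : (-1 / g) - conj m = -(conj m * g + 1) / g := by
    field_simp
    ring
  have h6 : (-1 / g) - m = -(m * g + 1) / g := by
    field_simp
    ring
  have h7 : g - (-1 / m) = (m * g + 1) / m := by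
    field_simp
    ring
  rw [h3, h5, h6, h7]
  field_simp

lemma im_neg_inv (g : ℂ) : (-1 / g).im = g.im / Complex.normSq g := by
  rw [neg_div, Complex.neg_im, one_div, Complex.inv_im, neg_div, neg_neg]

lemma im_neg_inv_pos {g : ℂ} (hg : 0 < g.im) : 0 < (-1 / g).im := by
  rw [im_neg_inv]
  have hg0 : g ≠ 0 := by rintro rfl; simp at hg
  have := Complex.normSq_pos.2 hg0
  positivity

lemma norm_div_conj_self {m : ℂ} (hm : m ≠ 0) : ‖m / conj m‖ = 1 := by
  rw [norm_div, Complex.norm_conj, div_self (by simpa using hm)]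

/-- `g ↦ cay m (-1/g)` is Lipschitz on the upper half plane. -/
lemma norm_cay_neg_inv_sub_le {m g g' : ℂ} (hm : 0 < m.im) (hg : 0 < g.im) (hg' : 0 < g'.im) :
    ‖cay m (-1 / g) - cay m (-1 / g')‖ ≤ 2 / (-1 / m).im * ‖g - g'‖ := by
  have hm0 : m ≠ 0 := by rintro rfl; simp at hm
  rw [cay_neg_inv hm hg, cay_neg_inv hm hg', ← mul_sub, norm_mul, norm_div_conj_self hm0, one_mul]
  exact norm_cay_sub_le (im_neg_inv_pos hm) hg.le hg'.le

end P156.H613
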