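import Vale.Agent.P156.H613.Mob
import Mathlib.Analysis.Matrix.Hermitian
import Mathlib.LinearAlgebra.Matrix.NonsingularInverse
import Mathlib.Algebra.Order.Chebyshev

/-!
Part C7 (first half): the Schwarz-Pick inequality for diagonal resolvent entries,
for resolvents of the form `(B - z P)⁻¹`, `B` real symmetric, `P ≥ 0` diagonal
(this covers usual resolvents and resolvents with killed sites).
-/

open Complex Matrix
open scoped ComplexConjugate

namespace P156.H613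

variable {V : Type*} [Fintype V]

lemma weighted_cs (p : V → ℝ) (hp : ∀ i, 0 ≤ p i) (a b : V → ℝ) :
    (∑ i, p i * (a i * b i)) ^ 2 ≤ (∑ i, p i * a i ^ 2) * (∑ i, p i * b i ^ 2) := by
  have h := Finset.sum_mul_sq_le_sq_mul_sq Finset.univ (fun i => √(p i) * a i)
    (fun i => √(p i) * b i)
  have e1 : ∀ i, √(p i) * a i * (√(p i) * b i) = p i * (a i * b i) := by
    intro i
    have := Real.mul_self_sqrt (hp i)
    calc √(p i) * a i * (√(p i) * b i) = (√(p i) * √(p i)) * (a i * b i) := by ring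
      _ = _ := by rw [this]
  have e2 : ∀ (c : V → ℝ) i, (√(p i) * c i) ^ 2 = p i * c i ^ 2 := by
    intro c i
    rw [mul_pow, Real.sq_sqrt (hp i)]
  simpa only [e1, e2] using h

/-- Schwarz-Pick from a representation: if `h - h' = (z - z') Σ p y y'`,
`Im h = Im z Σ p |y|²`, `Im h' = Im z' Σ p |y'|²` then the Pick inequality holds. -/
lemma pick_of_rep (p : V → ℝ) (hp : ∀ i, 0 ≤ p i) (y y' : V → ℂ) {z z' h h' : ℂ}
    (hz : 0 < z.im) (hz' : 0 < z'.im)
    (h1 : ‖h - h'‖ ≤ ‖z - z'‖ * ∑ i, p i * (‖y i‖ * ‖y' i‖))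
    (h2 : h.im = z.im * ∑ i, p i * ‖y i‖ ^ 2)
    (h3 : h'.im = z'.im * ∑ i, p i * ‖y' i‖ ^ 2) :
    ‖h - h'‖ ^ 2 ≤ ‖z - z'‖ ^ 2 / (z.im * z'.im) * (h.im * h'.im) := by
  have hcs := weighted_cs p hp (fun i => ‖y i‖) (fun i => ‖y' i‖)
  have : ‖h - h'‖ ^ 2 ≤ ‖z - z'‖ ^ 2 * (∑ i, p i * (‖y i‖ * ‖y' i‖)) ^ 2 := by
    rw [← mul_pow]
    exact pow_le_pow_left₀ (norm_nonneg _) h1 2
  refine this.trans ?_
  rw [h2, h3]
  calc ‖z - z'‖ ^ 2 * (∑ i, p i * (‖y i‖ * ‖y' i‖)) ^ 2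
      ≤ ‖z - z'‖ ^ 2 * ((∑ i, p i * ‖y i‖ ^ 2) * (∑ i, p i * ‖y' i‖ ^ 2)) := by
        gcongr
    _ = _ := by
        field_simp

/-- Pick inequality for `h(z) = Σ w_i/(λ_i - z)`. -/
theorem pick_sum (w lam : V → ℝ) (hw : ∀ i, 0 ≤ w i) {z z' : ℂ} (hz : 0 < z.im)
    (hz' : 0 < z'.im) :
    ‖(∑ i, (w i : ℂ) / (lam i - z)) - ∑ i, (w i : ℂ) / (lam i - z')‖ ^ 2 ≤
      ‖z - z'‖ ^ 2 / (z.im * z'.im) *
        ((∑ i, (w i : ℂ) / (lam i - z)).im * (∑ i, (w i : ℂ) / (lam i - z')).im) := by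
  have hne : ∀ (u : ℂ), 0 < u.im → ∀ i, (lam i : ℂ) - u ≠ 0 := by
    intro u hu i h0
    have := congrArg Complex.im h0
    simp at this
    linarith
  have him : ∀ (u : ℂ), 0 < u.im →
      (∑ i, (w i : ℂ) / (lam i - u)).im = u.im * ∑ i, w i * ‖((lam i : ℂ) - u)⁻¹‖ ^ 2 := by
    intro u hu
    rw [Complex.im_sum, Finset.mul_sum]
    refine Finset.sum_congr rfl fun i _ => ?_
    rw [div_eq_mul_inv, Complex.im_ofReal_mul, Complex.inv_im, norm_inv, inv_pow,
      Complex.sq_norm]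
    simp
    ring
  refine pick_of_rep w hw (fun i => ((lam i : ℂ) - z)⁻¹) (fun i => ((lam i : ℂ) - z')⁻¹) hz hz'
    ?_ (him z hz) (him z' hz')
  rw [← Finset.sum_sub_distrib, Finset.mul_sum]
  refine (norm_sum_le _ _).trans (Finset.sum_le_sum fun i _ => ?_)
  have e : (w i : ℂ) / (lam i - z) - (w i : ℂ) / (lam i - z') =
      (z - z') * ((w i : ℂ) * (((lam i : ℂ) - z)⁻¹ * ((lam i : ℂ) - z')⁻¹)) := by
    have a := hne z hz i
    have b := hne z' hz' i
    field_simp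
    ring
  rw [e, norm_mul, norm_mul, norm_mul, Complex.norm_real, Real.norm_of_nonneg (hw i)]

variable [DecidableEq V]

/-- `B - z P` -/
noncomputable def pencil (B : Matrix V V ℝ) (p : V → ℝ) (z : ℂ) : Matrix V V ℂ :=
  B.map (fun r : ℝ => (r : ℂ)) - z • Matrix.diagonal (fun i => (p i : ℂ))

omit [Fintype V] in
lemma pencil_transpose {B : Matrix V V ℝ} (hB : B.IsSymm) (p : V → ℝ) (z : ℂ) :
    (pencil B p z)ᵀ = pencil B p z := by
  unfold pencil
  rw [Matrix.transpose_sub, Matrix.transpose_smul, Matrix.diagonal_transpose,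
    ← Matrix.transpose_map, hB.eq]

omit [Fintype V] [DecidableEq V] in
lemma ofReal_isHermitian {B : Matrix V V ℝ} (hB : B.IsSymm) :
    (B.map (fun r : ℝ => (r : ℂ))).IsHermitian := by
  ext i j
  simp only [Matrix.conjTranspose_apply, Matrix.map_apply]
  rw [← hB.apply i j]
  simp

lemma star_dot_pencil (B : Matrix V V ℝ) (p : V → ℝ) (z : ℂ) (y y' : V → ℂ) :
    (y ⬝ᵥ (pencil B p z *ᵥ y')) =
      y ⬝ᵥ (B.map (fun r : ℝ => (r : ℂ)) *ᵥ y') - z * ∑ i, (p i : ℂ) * (y i * y' i) := by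
  unfold pencil
  rw [Matrix.sub_mulVec, dotProduct_sub, Matrix.smul_mulVec, dotProduct_smul, smul_eq_mul]
  congr 2
  unfold dotProduct
  refine Finset.sum_congr rfl fun i _ => ?_
  rw [Matrix.mulVec_diagonal]
  ring

lemma star_dot_pencil_im {B : Matrix V V ℝ} (hB : B.IsSymm) (p : V → ℝ) (z : ℂ) (y : V → ℂ) :
    (star y ⬝ᵥ (pencil B p z *ᵥ y)).im = - (z.im * ∑ i, p i * ‖y i‖ ^ 2) := by
  rw [star_dot_pencil, Complex.sub_im]
  have h1 := (ofReal_isHermitian hB).im_star_dotProduct_mulVec_self y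
  have h1' : (star y ⬝ᵥ (B.map (fun r : ℝ => (r : ℂ)) *ᵥ y)).im = 0 := h1
  rw [h1', zero_sub, neg_inj]
  have e : ∑ i, (p i : ℂ) * (star y i * y i) = ((∑ i, p i * ‖y i‖ ^ 2 : ℝ) : ℂ) := by
    rw [Complex.ofReal_sum]
    refine Finset.sum_congr rfl fun i _ => ?_
    rw [Pi.star_apply, Complex.star_def, Complex.conj_mul']
    push_cast
    ring
  rw [e, Complex.im_mul_ofReal]

/-- the quadratic form of the inverse of the pencil -/
noncomputable def qf (B : Matrix V V ℝ) (p : V → ℝ) (x : V → ℝ) (z : ℂ) : ℂ :=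
  (fun i => (x i : ℂ)) ⬝ᵥ ((pencil B p z)⁻¹ *ᵥ fun i => (x i : ℂ))

lemma qf_im {B : Matrix V V ℝ} (hB : B.IsSymm) (p : V → ℝ) (x : V → ℝ) {z : ℂ}
    (hu : IsUnit (pencil B p z).det) :
    (qf B p x z).im =
      z.im * ∑ i, p i * ‖((pencil B p z)⁻¹ *ᵥ fun i => (x i : ℂ)) i‖ ^ 2 := by
  set y := (pencil B p z)⁻¹ *ᵥ fun i => (x i : ℂ) with hy
  have hMy : pencil B p z *ᵥ y = fun i => (x i : ℂ) := by
    rw [hy, Matrix.mulVec_mulVec, Matrix.mul_nonsing_inv _ hu, Matrix.one_mulVec]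
  have h1 := star_dot_pencil_im hB p z y
  rw [hMy] at h1
  have h2 : (star y ⬝ᵥ fun i => (x i : ℂ)) = conj (qf B p x z) := by
    unfold qf
    rw [← hy]
    unfold dotProduct
    rw [map_sum]
    refine Finset.sum_congr rfl fun i _ => ?_
    rw [map_mul, Complex.conj_ofReal, Pi.star_apply, Complex.star_def, mul_comm]
  rw [h2, Complex.conj_im, neg_inj] at h1
  exact h1

lemma qf_sub {B : Matrix V V ℝ} (hB : B.IsSymm) (p : V → ℝ) (x : V → ℝ) {z z' : ℂ}
    (hu : IsUnit (pencil B p z).det) (hu' : IsUnit (pencil B p z').det) :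
    qf B p x z - qf B p x z' =
      (z - z') * ∑ i, (p i : ℂ) * (((pencil B p z)⁻¹ *ᵥ fun i => (x i : ℂ)) i *
        ((pencil B p z')⁻¹ *ᵥ fun i => (x i : ℂ)) i) := by
  set y := (pencil B p z)⁻¹ *ᵥ fun i => (x i : ℂ) with hy
  set y' := (pencil B p z')⁻¹ *ᵥ fun i => (x i : ℂ) with hy'
  have hMy : pencil B p z *ᵥ y = fun i => (x i : ℂ) := by
    rw [hy, Matrix.mulVec_mulVec, Matrix.mul_nonsing_inv _ hu, Matrix.one_mulVec]
  have hMy' : pencil B p z' *ᵥ y' = fun i => (x i : ℂ) := by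
    rw [hy', Matrix.mulVec_mulVec, Matrix.mul_nonsing_inv _ hu', Matrix.one_mulVec]
  have h1 : qf B p x z = y ⬝ᵥ (pencil B p z' *ᵥ y') := by
    unfold qf
    rw [← hy, hMy', dotProduct_comm]
  have h2 : qf B p x z' = y ⬝ᵥ (pencil B p z *ᵥ y') := by
    unfold qf
    rw [← hy', ← hMy, ← pencil_transpose hB p z, Matrix.mulVec_transpose,
      ← Matrix.dotProduct_mulVec, pencil_transpose hB]
  rw [h1, h2, star_dot_pencil, star_dot_pencil]
  ring

/-- Schwarz-Pick inequality for the pencil. -/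
theorem pick_qf {B : Matrix V V ℝ} (hB : B.IsSymm) {p : V → ℝ} (hp : ∀ i, 0 ≤ p i)
    (x : V → ℝ) {z z' : ℂ} (hz : 0 < z.im) (hz' : 0 < z'.im)
    (hu : IsUnit (pencil B p z).det) (hu' : IsUnit (pencil B p z').det) :
    ‖qf B p x z - qf B p x z'‖ ^ 2 ≤ ‖z - z'‖ ^ 2 / (z.im * z'.im) *
      ((qf B p x z).im * (qf B p x z').im) := by
  refine pick_of_rep p hp ((pencil B p z)⁻¹ *ᵥ fun i => (x i : ℂ))
    ((pencil B p z')⁻¹ *ᵥ fun i => (x i : ℂ)) hz hz' ?_ (qf_im hB p x hu) (qf_im hB p x hu')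
  rw [qf_sub hB p x hu hu', norm_mul]
  gcongr
  refine (norm_sum_le _ _).trans (Finset.sum_le_sum fun i _ => ?_)
  rw [norm_mul, norm_mul, Complex.norm_real, Real.norm_of_nonneg (hp i)]

/-- Invertibility of `B - zP` when `B` restricted to the kernel of `P` is injective: here `P`
is a `0-1` diagonal matrix and `B` is the identity on the complement. -/
lemma pencil_isUnit {B : Matrix V V ℝ} (hB : B.IsSymm) {p : V → ℝ} (hp : ∀ i, 0 ≤ p i)
    (hker : ∀ i, p i = 0 → ∀ j, B i j = if i = j then 1 else 0)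
    {z : ℂ} (hz : 0 < z.im) : IsUnit (pencil B p z).det := by
  rw [← Matrix.isUnit_iff_isUnit_det, ← Matrix.mulVec_injective_iff_isUnit]
  intro y1 y2 h12
  have h0 : pencil B p z *ᵥ (y1 - y2) = 0 := by
    rw [Matrix.mulVec_sub]
    exact sub_eq_zero.2 h12
  set y := y1 - y2 with hy
  have h1 := star_dot_pencil_im hB p z y
  rw [h0, dotProduct_zero, Complex.zero_im] at h1
  have h2 : ∑ i, p i * ‖y i‖ ^ 2 = 0 := by
    have : z.im * ∑ i, p i * ‖y i‖ ^ 2 = 0 := by linarith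
    rcases mul_eq_zero.1 this with h | h
    · exact absurd h hz.ne'
    · exact h
  have h3 : ∀ i, p i * ‖y i‖ ^ 2 = 0 := by
    intro i
    exact (Finset.sum_eq_zero_iff_of_nonneg (fun i _ => mul_nonneg (hp i) (sq_nonneg _))).1 h2 i
      (Finset.mem_univ i)
  have h4 : y = 0 := by
    funext i
    rcases mul_eq_zero.1 (h3 i) with h | h
    · have := congrFun h0 i
      simp only [pencil, Matrix.sub_mulVec, Matrix.smul_mulVec, Pi.sub_apply, Pi.smul_apply,
        Matrix.mulVec_diagonal, h, Pi.zero_apply] at this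
      simp only [Matrix.mulVec, dotProduct, Matrix.map_apply, hker i h] at this
      simpa [apply_ite (fun r : ℝ => (r : ℂ)), ite_mul] using this
    · simpa using h
  exact sub_eq_zero.1 (hy ▸ h4)

end P156.H613
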