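import Vale.Agent.P156.H613.Mob
import Mathlib.Analysis.SpecialFunctions.Pow.Complex
import Mathlib.Analysis.SpecialFunctions.Pow.Real
import Mathlib.MeasureTheory.Function.SpecialFunctions.Basic

/-!
The fixed point `m(z)` of `m = -1/(z + q m)`, `Im m > 0`, for complex `z` in the closed upper
half plane.
-/

open Complex
open scoped ComplexConjugate

namespace P156.H613

/-- `m` solves `q m² + z m + 1 = 0` and has positive imaginary part. -/
structure IsM (q : ℕ) (z m : ℂ) : Prop where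
  eq : (q : ℂ) * m ^ 2 + z * m + 1 = 0
  im_pos : 0 < m.im

namespace IsM

variable {q : ℕ} {z m : ℂ}

lemma ne_zero (h : IsM q z m) : m ≠ 0 := by
  rintro rfl
  have := h.im_pos
  simp at this

lemma neg_inv (h : IsM q z m) : -1 / m = z + q * m := by
  have h0 := h.ne_zero
  have := h.eq
  field_simp
  linear_combination (-1 : ℂ) * this

lemma add_ne_zero (h : IsM q z m) : z + q * m ≠ 0 := by
  rw [← h.neg_inv]
  exact div_ne_zero (by norm_num) h.ne_zero

lemma fixed (h : IsM q z m) : -1 / (z + q * m) = m := by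
  rw [← h.neg_inv]
  have h0 := h.ne_zero
  field_simp

lemma im_add (m z : ℂ) (q : ℕ) : (z + q * m).im = z.im + q * m.im := by
  rw [Complex.add_im, Complex.mul_im]
  simp

/-- `Im z = Im m (1/|m|² - q)`, in the form `|m|² (Im z + q Im m) = Im m`. -/
lemma im_rel (h : IsM q z m) : ‖m‖ ^ 2 * (z.im + q * m.im) = m.im := by
  have h1 : (-1 / m).im = z.im + q * m.im := by
    rw [h.neg_inv, im_add]
  rw [im_neg_inv] at h1
  have h0 : Complex.normSq m ≠ 0 := by
    simpa using h.ne_zero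
  rw [← h1, Complex.sq_norm]
  field_simp

lemma norm_sq_le (h : IsM q z m) (hz : 0 ≤ z.im) : q * ‖m‖ ^ 2 ≤ 1 := by
  have h1 := h.im_rel
  have h2 := h.im_pos
  have h3 : ‖m‖ ^ 2 * (q * m.im) ≤ m.im := by
    have : 0 ≤ ‖m‖ ^ 2 * z.im := by positivity
    nlinarith
  have : (q * ‖m‖ ^ 2) * m.im ≤ 1 * m.im := by linarith
  exact le_of_mul_le_mul_right this h2

lemma norm_le_one (h : IsM q z m) (hz : 0 ≤ z.im) (hq : 1 ≤ q) : ‖m‖ ≤ 1 := by
  have h1 := h.norm_sq_le hz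
  have h2 : (1 : ℝ) ≤ q := by exact_mod_cast hq
  have h3 : ‖m‖ ^ 2 ≤ 1 := by nlinarith [sq_nonneg ‖m‖]
  nlinarith [norm_nonneg m]

lemma im_le_one (h : IsM q z m) (hz : 0 ≤ z.im) (hq : 1 ≤ q) : m.im ≤ 1 :=
  ((le_abs_self _).trans (Complex.abs_im_le_norm m)).trans (h.norm_le_one hz hq)

lemma one_le_norm (h : IsM q z m) (hz : 0 ≤ z.im) (hq : 1 ≤ q) :
    1 ≤ ‖m‖ * (‖z‖ + q) := by
  have h1 : ‖m‖ * ‖z + q * m‖ = 1 := by
    rw [← norm_mul]
    have : m * (z + q * m) = -1 := by linear_combination h.eq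
    rw [this]
    simp
  rw [← h1]
  gcongr
  refine (norm_add_le _ _).trans ?_
  gcongr
  rw [norm_mul, Complex.norm_natCast]
  have := h.norm_le_one hz hq
  have h2 : (0 : ℝ) ≤ q := by positivity
  nlinarith

/-- lower bound for the imaginary part -/
lemma im_lower (h : IsM q z m) (hz : 0 ≤ z.im) (hq : 1 ≤ q) :
    z.im / (‖z‖ + q) ^ 2 ≤ m.im := by
  have hq' : (1 : ℝ) ≤ q := by exact_mod_cast hq
  have h1 := h.one_le_norm hz hq
  have h2 : ‖m‖ ^ 2 * z.im ≤ m.im := by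
    have h3 := h.im_rel
    have h4 : 0 ≤ ‖m‖ ^ 2 * (q * m.im) := by
      have := h.im_pos
      positivity
    nlinarith
  have hp : 0 < ‖z‖ + q := by positivity
  rw [div_le_iff₀ (by positivity)]
  calc z.im = 1 ^ 2 * z.im := by ring
    _ ≤ (‖m‖ * (‖z‖ + q)) ^ 2 * z.im := by gcongr
    _ = (‖m‖ ^ 2 * z.im) * (‖z‖ + q) ^ 2 := by ring
    _ ≤ m.im * (‖z‖ + q) ^ 2 := by gcongr

end IsM

/-- The root `m(z)`, explicit formula. -/
noncomputable def mz (q : ℕ) (z : ℂ) : ℂ :=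
  (-z + I * ((4 * q - z ^ 2 : ℂ) ^ (2⁻¹ : ℂ))) / (2 * q)

lemma mz_isM {q : ℕ} (hq : 1 ≤ q) {z : ℂ} (hz : 0 < z.im) : IsM q z (mz q z) := by
  have hq0 : (q : ℂ) ≠ 0 := by exact_mod_cast (by omega : q ≠ 0)
  have hqr : (0 : ℝ) < q := by exact_mod_cast hq
  set w : ℂ := 4 * q - z ^ 2 with hw
  set s : ℂ := w ^ (2⁻¹ : ℂ) with hs
  have hs2 : s ^ 2 = w := by
    rw [hs, ← Complex.cpow_nat_mul]
    norm_num
  have hwre : w.re = 4 * q - z.re ^ 2 + z.im ^ 2 := by
    rw [hw, sq]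
    simp
    ring
  have hwim : w.im = - (2 * z.re * z.im) := by
    rw [hw, sq]
    simp
    ring
  have hnorm : (z.re ^ 2 + z.im ^ 2 - 4 * q) ^ 2 < ‖w‖ ^ 2 := by
    rw [Complex.sq_norm, Complex.normSq_apply, hwre, hwim]
    nlinarith [mul_pos hqr (mul_pos hz hz)]
  have hlt : z.re ^ 2 + z.im ^ 2 - 4 * q < ‖w‖ := by
    have := abs_lt_of_sq_lt_sq hnorm (norm_nonneg _)
    exact (le_abs_self _).trans_lt this
  have hre : z.im < s.re := by
    rw [hs, Complex.cpow_inv_two_re]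
    apply Real.lt_sqrt_of_sq_lt
    rw [hwre]
    nlinarith
  have hdef : mz q z = (-z + I * s) / (2 * q) := rfl
  refine ⟨?_, ?_⟩
  · rw [hdef]
    field_simp
    rw [hw] at hs2
    linear_combination (-1 : ℂ) * hs2 + s ^ 2 * I_sq
  · rw [hdef]
    have e : ((-z + I * s) / (2 * q) : ℂ) = (-z + I * s) / ((2 * q : ℝ) : ℂ) := by
      push_cast
      rfl
    rw [e, Complex.div_ofReal_im]
    apply div_pos _ (by positivity)
    simp
    linarith

lemma measurable_mz (q : ℕ) : Measurable (mz q) := by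
  unfold mz
  fun_prop

end P156.H613
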