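import Vale.Agent.P156.H613.BridgeFent
import Mathlib.Algebra.Order.Chebyshev

/-!
Positive definiteness of the star covariance on fewer than `d` leaves.
-/

open MeasureTheory ProbabilityTheory Matrix
open scoped Kronecker

noncomputable section

namespace P156.H613

lemma sigS_quad {q m : ℕ} (hq : 1 ≤ q) (lam : ℝ) {g : Fin m → Fin (q + 1)}
    (hg : Function.Injective g) (v : Option (Fin m) → ℝ) :
    v ⬝ᵥ ((SigS (q + 1) lam).submatrix (Option.map g) (Option.map g) *ᵥ v) =
      (v none + lam / ((q : ℝ) + 1) * ∑ j, v (some j)) ^ 2 +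
        ((((q : ℝ) + 1) ^ 2 - lam ^ 2) / (((q : ℝ) + 1) * q)) *
          (∑ j, v (some j) ^ 2 - (∑ j, v (some j)) ^ 2 / ((q : ℝ) + 1)) := by
  have hq0 : (0 : ℝ) < q := by exact_mod_cast hq
  set c : ℝ := lam / ((q : ℝ) + 1) with hc
  set ρ : ℝ := (lam ^ 2 - ((q : ℝ) + 1)) / (((q : ℝ) + 1) * q) with hρ
  have hd : (((q + 1 : ℕ) : ℝ)) = (q : ℝ) + 1 := by push_cast; ring
  have e0 : ((SigS (q + 1) lam).submatrix (Option.map g) (Option.map g) *ᵥ v) none =
      v none + c * ∑ j, v (some j) := by
    simp only [Matrix.mulVec, dotProduct, Matrix.submatrix_apply]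
    rw [Fintype.sum_option, Finset.mul_sum]
    simp [SigS, hc]
  have e1 : ∀ j, ((SigS (q + 1) lam).submatrix (Option.map g) (Option.map g) *ᵥ v) (some j) =
      c * v none + (ρ * ∑ i, v (some i) + (1 - ρ) * v (some j)) := by
    intro j
    simp only [Matrix.mulVec, dotProduct, Matrix.submatrix_apply]
    rw [Fintype.sum_option]
    congr 1
    · simp [SigS, hc]
    · have e2 : ∀ i, SigS (q + 1) lam (Option.map g (some j)) (Option.map g (some i)) =
          ρ + (if j = i then 1 - ρ else 0) := by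
        intro i
        unfold SigS
        by_cases h : j = i
        · subst h; simp
        · have h' : g j ≠ g i := fun h2 => h (hg h2)
          have e4 : (q : ℝ) + 1 - 1 = q := by ring
          simp [h, h', hρ, e4]
      simp_rw [e2, add_mul]
      rw [Finset.sum_add_distrib, ← Finset.mul_sum]
      simp
  rw [dotProduct, Fintype.sum_option, e0]
  simp_rw [e1]
  have e3 : ∑ j, v (some j) * (c * v none + (ρ * ∑ i, v (some i) + (1 - ρ) * v (some j))) =
      c * v none * (∑ j, v (some j)) + ρ * (∑ i, v (some i)) ^ 2 +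
        (1 - ρ) * ∑ j, v (some j) ^ 2 := by
    have e4 : ∀ j, v (some j) * (c * v none + (ρ * ∑ i, v (some i) + (1 - ρ) * v (some j))) =
        (c * v none) * v (some j) + (ρ * ∑ i, v (some i)) * v (some j) +
          (1 - ρ) * v (some j) ^ 2 := fun j => by ring
    rw [Finset.sum_congr rfl fun j _ => e4 j, Finset.sum_add_distrib, Finset.sum_add_distrib,
      ← Finset.mul_sum, ← Finset.mul_sum, ← Finset.mul_sum]
    ring
  rw [e3]
  have h1 : (1 - ρ) = (((q : ℝ) + 1) ^ 2 - lam ^ 2) / (((q : ℝ) + 1) * q) := by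
    rw [hρ]; field_simp; ring
  have h2 : ρ - c ^ 2 = -(1 - ρ) / ((q : ℝ) + 1) := by
    rw [hρ, hc]; field_simp; ring
  rw [← h1]
  linear_combination (∑ j, v (some j)) ^ 2 * h2

/-- Positive definiteness on `m < d` leaves. -/
theorem sigS_posDef {q m : ℕ} (hq : 1 ≤ q) {lam : ℝ} (hlam : lam ^ 2 < ((q : ℝ) + 1) ^ 2)
    (hm : m ≤ q) {g : Fin m → Fin (q + 1)} (hg : Function.Injective g) :
    ((SigS (q + 1) lam).submatrix (Option.map g) (Option.map g)).PosDef := by
  have hq0 : (0 : ℝ) < q := by exact_mod_cast hq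
  refine Matrix.PosDef.of_dotProduct_mulVec_pos ?_ ?_
  · ext x y
    simp only [Matrix.conjTranspose_apply, Matrix.submatrix_apply, SigS, star_trivial]
    simp only [eq_comm, or_comm]
  · intro v hv
    rw [star_trivial, sigS_quad hq lam hg]
    set S := ∑ j, v (some j) with hS
    have hCS : S ^ 2 ≤ m * ∑ j, v (some j) ^ 2 := by
      have := sq_sum_le_card_mul_sum_sq (s := (Finset.univ : Finset (Fin m)))
        (f := fun j => v (some j))
      simpa using this
    have hN : 0 ≤ ∑ j, v (some j) ^ 2 := Finset.sum_nonneg fun j _ => sq_nonneg _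
    have hmq : (m : ℝ) ≤ q := by exact_mod_cast hm
    have hB : 0 < (((q : ℝ) + 1) ^ 2 - lam ^ 2) / (((q : ℝ) + 1) * q) := by
      apply div_pos (by linarith) (by positivity)
    have hlow : (∑ j, v (some j) ^ 2) / ((q : ℝ) + 1) ≤
        ∑ j, v (some j) ^ 2 - S ^ 2 / ((q : ℝ) + 1) := by
      rw [div_le_iff₀ (by positivity)]
      have : (∑ j, v (some j) ^ 2 - S ^ 2 / ((q : ℝ) + 1)) * ((q : ℝ) + 1) =
          (∑ j, v (some j) ^ 2) * ((q : ℝ) + 1) - S ^ 2 := by field_simp
      rw [this]
      nlinarith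
    rcases eq_or_lt_of_le hN with h0 | h0
    · have hz : ∀ j, v (some j) = 0 := by
        intro j
        have := (Finset.sum_eq_zero_iff_of_nonneg (fun j _ => sq_nonneg (v (some j)))).1 h0.symm j
          (Finset.mem_univ j)
        simpa using this
      have hv0 : v none ≠ 0 := by
        intro h
        apply hv
        funext x
        cases x with
        | none => exact h
        | some j => exact hz j
      have hS0 : S = 0 := by
        rw [hS]; simp [hz]
      rw [hS0, ← h0]
      simp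
      positivity
    · have h3 : 0 < ∑ j, v (some j) ^ 2 - S ^ 2 / ((q : ℝ) + 1) :=
        lt_of_lt_of_le (by positivity) hlow
      have h4 := mul_pos hB h3
      have h5 := sq_nonneg (v none + lam / ((q : ℝ) + 1) * S)
      linarith

theorem sigS_posDef_red {q : ℕ} (hq : 1 ≤ q) {lam : ℝ} (hlam : lam ^ 2 < ((q : ℝ) + 1) ^ 2) :
    ((SigS (q + 1) lam).submatrix (Option.map Fin.castSucc)
      (Option.map (Fin.castSucc : Fin q → Fin (q + 1)))).PosDef :=
  sigS_posDef hq hlam le_rfl (Fin.castSucc_injective q)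

theorem sigS_posDef_edge {q : ℕ} (hq : 1 ≤ q) {lam : ℝ} (hlam : lam ^ 2 < ((q : ℝ) + 1) ^ 2) :
    ((SigS (q + 1) lam).submatrix (Option.map fun _ : Fin 1 => (0 : Fin (q + 1)))
      (Option.map fun _ : Fin 1 => (0 : Fin (q + 1)))).PosDef :=
  sigS_posDef hq hlam hq (Function.injective_of_subsingleton _)

end P156.H613
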