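import Vale.Agent.P156.H613.BridgeM

/-!
The test functions `‖T m h‖²`, `Re T m h`, `Im T m h` (normalised, with clamped energy) are in the
class `Cls`; bounds for `mE` on compact subintervals of the bulk.
-/

open Complex Matrix
open scoped ComplexConjugate

namespace P156.H613

open Vale.Agent.P156 P156.Gap

/-- the clamped energy -/
noncomputable def clampE (a b E : ℝ) : ℝ := max a (min b E)

lemma clampE_mem {a b : ℝ} (hab : a ≤ b) (E : ℝ) : a ≤ clampE a b E ∧ clampE a b E ≤ b :=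
  ⟨le_max_left _ _, max_le hab (min_le_left _ _)⟩

lemma clampE_eq {a b E : ℝ} (h1 : a ≤ E) (h2 : E ≤ b) : clampE a b E = E := by
  unfold clampE
  rw [min_eq_right h2, max_eq_right h1]

/-- `m` at the clamped energy -/
noncomputable def mcl (d : ℕ) (a b E : ℝ) : ℂ := mE d (clampE a b E)

lemma continuous_mE (d : ℕ) : Continuous (mE d) := by
  unfold mE
  fun_prop

lemma continuous_mcl (d : ℕ) (a b : ℝ) : Continuous (mcl d a b) := by
  unfold mcl clampE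
  exact (continuous_mE d).comp (by fun_prop)

/-- lower bound of `Im mE` on `[a,b]` -/
noncomputable def cab (d : ℕ) (a b : ℝ) : ℝ :=
  Real.sqrt (4 * ((d : ℝ) - 1) - max (a ^ 2) (b ^ 2)) / (2 * ((d : ℝ) - 1))

lemma sq_le_max_sq {a b E : ℝ} (h1 : a ≤ E) (h2 : E ≤ b) : E ^ 2 ≤ max (a ^ 2) (b ^ 2) := by
  rcases le_total 0 E with h | h
  · exact le_max_of_le_right (by nlinarith)
  · exact le_max_of_le_left (by nlinarith)

lemma cab_pos {d : ℕ} (hd : 2 ≤ d) {a b : ℝ} (ha : a ^ 2 < 4 * ((d : ℝ) - 1))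
    (hb : b ^ 2 < 4 * ((d : ℝ) - 1)) : 0 < cab d a b := by
  unfold cab
  have : (2 : ℝ) ≤ d := by exact_mod_cast hd
  apply div_pos
  · apply Real.sqrt_pos.2
    have := max_lt ha hb
    linarith
  · linarith

lemma cab_le {d : ℕ} (hd : 2 ≤ d) {a b E : ℝ} (h1 : a ≤ E) (h2 : E ≤ b) :
    cab d a b ≤ (mE d E).im := by
  rw [mE_im]
  unfold cab
  have : (2 : ℝ) ≤ d := by exact_mod_cast hd
  have h3 : (0 : ℝ) < 2 * ((d : ℝ) - 1) := by linarith
  have := sq_le_max_sq h1 h2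
  gcongr

lemma root_of_mem {d : ℕ} (hd : 2 ≤ d) {a b E : ℝ} (ha : a ^ 2 < 4 * ((d : ℝ) - 1))
    (hb : b ^ 2 < 4 * ((d : ℝ) - 1)) (h1 : a ≤ E) (h2 : E ≤ b) : Root (d - 1) E (mE d E) :=
  mE_root hd ((sq_le_max_sq h1 h2).trans_lt (max_lt ha hb))

/-- bulk condition in the form of the specification -/
lemma sq_lt_of_bulk {d : ℕ} (hd : 1 ≤ d) {a : ℝ} (h1 : -(2 * Real.sqrt ((d : ℝ) - 1)) < a)
    (h2 : a < 2 * Real.sqrt ((d : ℝ) - 1)) : a ^ 2 < 4 * ((d : ℝ) - 1) := by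
  have hd' : (0 : ℝ) ≤ (d : ℝ) - 1 := by
    have : (1 : ℝ) ≤ d := by exact_mod_cast hd
    linarith
  have h3 := Real.sq_sqrt hd'
  have h4 : |a| < 2 * Real.sqrt ((d : ℝ) - 1) := abs_lt.2 ⟨h1, h2⟩
  have h5 : |a| ^ 2 < (2 * Real.sqrt ((d : ℝ) - 1)) ^ 2 := by
    apply pow_lt_pow_left₀ h4 (abs_nonneg _) (by norm_num)
  rw [sq_abs, mul_pow, h3] at h5
  linarith

/-! ### the inverse coordinate -/

section

variable {q : ℕ} {E : ℝ} {m : ℂ}

lemma T_neg_inv (h : Root q E m) {g : ℂ} (hg : 0 < g.im) :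
    T m (-1 / g) = m ^ 2 * ((g + m⁻¹) / (g + m)) := by
  have hm0 := h.ne_zero
  have hm := h.im_pos
  have hg0 : g ≠ 0 := by rintro rfl; simp at hg
  have h1 : g + m ≠ 0 := by
    intro h0
    have := congrArg Complex.im h0
    simp at this
    linarith
  have h2 : (-1 / g) - m⁻¹ = -(g + m) / (g * m) := by
    field_simp
    ring
  have h3 : (-1 / g) - m = -(m * (g + m⁻¹)) / g := by
    field_simp
    ring
  unfold T
  rw [h2, h3]
  field_simp

lemma T_neg_inv_lip (h : Root q E m) {g g' : ℂ} (hg : 0 < g.im) (hg' : 0 < g'.im) :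
    ‖T m (-1 / g) - T m (-1 / g')‖ ≤ (q + 1) / m.im ^ 2 * ‖g - g'‖ := by
  have hm := h.im_pos
  have a1 : m.im ≤ ‖g + m‖ := by
    calc m.im ≤ (g + m).im := by simp; exact hg.le
      _ ≤ _ := (le_abs_self _).trans (Complex.abs_im_le_norm _)
  have a2 : m.im ≤ ‖g' + m‖ := by
    calc m.im ≤ (g' + m).im := by simp; exact hg'.le
      _ ≤ _ := (le_abs_self _).trans (Complex.abs_im_le_norm _)
  have p1 : 0 < ‖g + m‖ := by linarith
  have p2 : 0 < ‖g' + m‖ := by linarith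
  have b1 : g + m ≠ 0 := norm_pos_iff.1 p1
  have b2 : g' + m ≠ 0 := norm_pos_iff.1 p2
  have e : m ^ 2 * ((g + m⁻¹) / (g + m)) - m ^ 2 * ((g' + m⁻¹) / (g' + m)) =
      m ^ 2 * ((m - m⁻¹) * (g - g')) / ((g + m) * (g' + m)) := by
    rw [← mul_sub, div_sub_div _ _ b1 b2, mul_div_assoc]
    congr 2
    ring
  rw [T_neg_inv h hg, T_neg_inv h hg', e, norm_div, norm_mul, norm_mul, norm_mul, norm_pow,
    div_le_iff₀ (by positivity)]
  have h3 := h.kappa_norm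
  have h4 : ‖m‖ ^ 2 ≤ 1 := by
    have := h.norm_le_one
    nlinarith [norm_nonneg m]
  calc ‖m‖ ^ 2 * (‖m - m⁻¹‖ * ‖g - g'‖) ≤ 1 * ((q + 1) * ‖g - g'‖) := by gcongr
    _ = (q + 1) / m.im ^ 2 * ‖g - g'‖ * (m.im * m.im) := by field_simp
    _ ≤ (q + 1) / m.im ^ 2 * ‖g - g'‖ * (‖g + m‖ * ‖g' + m‖) := by gcongr

/-- `T` controls the distance to `m`. -/
lemma norm_sub_le_T (h : Root q E m) {w : ℂ} (hw : 0 ≤ w.im) (hT : ‖T m w‖ ≤ 1 / 2) :
    ‖w - m‖ ≤ 2 * (q + 1) * ‖T m w‖ := by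
  have hm := h.im_pos
  have hq : (1 : ℝ) ≤ q := by exact_mod_cast h.qpos
  have b1 : w - m⁻¹ ≠ 0 := by
    intro h0
    have := h.le_norm_sub_inv (w := w)
    rw [h0, norm_zero] at this
    nlinarith
  have e : (w - m) * (1 - T m w) = T m w * (m - m⁻¹) := by
    unfold T
    generalize m⁻¹ = k at b1 ⊢
    field_simp
    ring
  have h1 : ‖w - m‖ * ‖1 - T m w‖ = ‖T m w‖ * ‖m - m⁻¹‖ := by
    rw [← norm_mul, e, norm_mul]
  have h2 : 1 / 2 ≤ ‖1 - T m w‖ := by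
    have := norm_sub_norm_le (1 : ℂ) (T m w)
    rw [norm_one] at this
    linarith
  have h3 := h.kappa_norm
  have h4 : ‖w - m‖ * (1 / 2) ≤ ‖T m w‖ * (q + 1) := by
    calc ‖w - m‖ * (1 / 2) ≤ ‖w - m‖ * ‖1 - T m w‖ := by gcongr
      _ = ‖T m w‖ * ‖m - m⁻¹‖ := h1
      _ ≤ _ := by gcongr
  linarith

lemma min_one_norm_sub_le_T (h : Root q E m) {w : ℂ} (hw : 0 ≤ w.im) :
    min 1 ‖w - m‖ ≤ 2 * (q + 1) * ‖T m w‖ := by
  have hq : (1 : ℝ) ≤ q := by exact_mod_cast h.qpos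
  by_cases hT : ‖T m w‖ ≤ 1 / 2
  · exact (min_le_right _ _).trans (norm_sub_le_T h hw hT)
  · push Not at hT
    refine (min_le_left _ _).trans ?_
    nlinarith

end

/-! ### the test functions -/

/-- bound of `‖T‖` -/
noncomputable def TB (d : ℕ) (a b : ℝ) : ℝ := 1 + ((d - 1 : ℕ) + 1) / cab d a b

/-- Lipschitz constant of `T` -/
noncomputable def TL (d : ℕ) (a b : ℝ) : ℝ := ((d - 1 : ℕ) + 1) / cab d a b ^ 2

/-- normalisation constant -/
noncomputable def TN (d : ℕ) (a b : ℝ) : ℝ := (1 + TB d a b + TL d a b) ^ 2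

section

variable {d : ℕ} {a b : ℝ}

lemma TB_nonneg (hc : 0 < cab d a b) : 1 ≤ TB d a b := by
  unfold TB
  have : 0 ≤ (((d - 1 : ℕ) : ℝ) + 1) / cab d a b := by positivity
  linarith

lemma TL_nonneg : 0 ≤ TL d a b := by
  unfold TL
  positivity

lemma TN_ge (hc : 0 < cab d a b) :
    1 ≤ TN d a b ∧ TB d a b ≤ TN d a b ∧ TL d a b ≤ TN d a b ∧ TB d a b ^ 2 ≤ TN d a b ∧
      2 * TB d a b * TL d a b ≤ TN d a b := by
  have h1 := TB_nonneg hc
  have h2 : 0 ≤ TL d a b := TL_nonneg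
  unfold TN
  refine ⟨?_, ?_, ?_, ?_, ?_⟩ <;> nlinarith [mul_nonneg (by linarith : 0 ≤ TB d a b) h2]

variable (hd : 2 ≤ d) (hab : a ≤ b) (ha : a ^ 2 < 4 * ((d : ℝ) - 1))
  (hb : b ^ 2 < 4 * ((d : ℝ) - 1))

include hd hab ha hb

lemma mcl_root (E : ℝ) : Root (d - 1) (clampE a b E) (mcl d a b E) :=
  root_of_mem hd ha hb (clampE_mem hab E).1 (clampE_mem hab E).2

omit ha hb in
lemma cab_le_mcl (E : ℝ) : cab d a b ≤ (mcl d a b E).im :=
  cab_le hd (clampE_mem hab E).1 (clampE_mem hab E).2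

lemma norm_T_mcl_le (E : ℝ) {h : ℂ} (hh : 0 ≤ h.im) : ‖T (mcl d a b E) h‖ ≤ TB d a b := by
  have hr := mcl_root hd hab ha hb E
  have hc := cab_pos hd ha hb
  refine (hr.T_bound hh).trans ?_
  unfold TB
  have := cab_le_mcl hd hab E
  gcongr

lemma T_mcl_lip (E : ℝ) {h h' : ℂ} (hh : 0 < h.im) (hh' : 0 < h'.im) :
    ‖T (mcl d a b E) h - T (mcl d a b E) h'‖ ≤ TL d a b * ‖h - h'‖ := by
  have hr := mcl_root hd hab ha hb E
  have hc := cab_pos hd ha hb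
  refine (hr.T_lip hh.le hh'.le).trans ?_
  unfold TL
  have := cab_le_mcl hd hab E
  gcongr

lemma T_mcl_lip_inv (E : ℝ) {g g' : ℂ} (hg : 0 < g.im) (hg' : 0 < g'.im) :
    ‖T (mcl d a b E) (-1 / g) - T (mcl d a b E) (-1 / g')‖ ≤ TL d a b * ‖g - g'‖ := by
  have hr := mcl_root hd hab ha hb E
  have hc := cab_pos hd ha hb
  refine (T_neg_inv_lip hr hg hg').trans ?_
  unfold TL
  have := cab_le_mcl hd hab E
  gcongr

omit hd hab ha hb in
lemma measurable_T_mcl (d : ℕ) (a b : ℝ) :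
    Measurable fun x : ℝ × ℂ => T (mcl d a b x.1) x.2 := by
  unfold T
  have h1 : Measurable fun x : ℝ × ℂ => mcl d a b x.1 :=
    (continuous_mcl d a b).measurable.comp measurable_fst
  exact (measurable_snd.sub h1).div (measurable_snd.sub h1.inv)

/-- The three test functions are obtained from a function `Ψ` of `T`. -/
lemma cls_of_comp {Ψ : ℂ → ℝ} (hΨ : Measurable Ψ)
    (hb1 : ∀ u, ‖u‖ ≤ TB d a b → |Ψ u| ≤ TN d a b)
    (hb2 : ∀ u u', ‖u‖ ≤ TB d a b → ‖u'‖ ≤ TB d a b →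
      |Ψ u - Ψ u'| * TL d a b ≤ TN d a b * ‖u - u'‖) :
    Cls (fun E h => Ψ (T (mcl d a b E) h) / TN d a b) := by
  have hc := cab_pos hd ha hb
  have hN1 := (TN_ge hc).1
  have hN : 0 < TN d a b := by linarith
  have hL : 0 ≤ TL d a b := TL_nonneg
  have hLpos : 0 < TL d a b := by
    unfold TL
    positivity
  have key : ∀ u u' : ℂ, ∀ r : ℝ, ‖u‖ ≤ TB d a b → ‖u'‖ ≤ TB d a b →
      ‖u - u'‖ ≤ TL d a b * r → |Ψ u / TN d a b - Ψ u' / TN d a b| ≤ r := by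
    intro u u' r hu hu' hr
    rw [← sub_div, abs_div, abs_of_pos hN, div_le_iff₀ hN]
    have h1 := hb2 u u' hu hu'
    have h2 : |Ψ u - Ψ u'| * TL d a b ≤ (r * TN d a b) * TL d a b := by
      calc _ ≤ TN d a b * ‖u - u'‖ := h1
        _ ≤ TN d a b * (TL d a b * r) := by gcongr
        _ = _ := by ring
    exact le_of_mul_le_mul_right h2 hLpos
  refine ⟨?_, ?_, ?_, ?_⟩
  · exact (hΨ.comp (measurable_T_mcl d a b)).div_const _
  · intro E h hh
    rw [abs_div, abs_of_pos hN, div_le_one hN]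
    exact hb1 _ (norm_T_mcl_le hd hab ha hb E hh.le)
  · intro E h h' hh hh'
    exact key _ _ _ (norm_T_mcl_le hd hab ha hb E hh.le) (norm_T_mcl_le hd hab ha hb E hh'.le)
      (T_mcl_lip hd hab ha hb E hh hh')
  · intro E g g' hg hg'
    exact key _ _ _ (norm_T_mcl_le hd hab ha hb E (im_neg_inv_pos hg).le)
      (norm_T_mcl_le hd hab ha hb E (im_neg_inv_pos hg').le)
      (T_mcl_lip_inv hd hab ha hb E hg hg')

theorem cls_T_sq : Cls (fun E h => ‖T (mcl d a b E) h‖ ^ 2 / TN d a b) := by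
  have hc := cab_pos hd ha hb
  obtain ⟨h1, h2, h3, h4, h5⟩ := TN_ge hc
  have hB := TB_nonneg hc
  have hL : 0 ≤ TL d a b := TL_nonneg
  refine cls_of_comp hd hab ha hb (Ψ := fun u => ‖u‖ ^ 2) (by fun_prop) ?_ ?_
  · intro u hu
    rw [abs_of_nonneg (by positivity)]
    refine le_trans ?_ h4
    gcongr
  · intro u u' hu hu'
    have e : ‖u‖ ^ 2 - ‖u'‖ ^ 2 = (‖u‖ + ‖u'‖) * (‖u‖ - ‖u'‖) := by ring
    have hlow : |‖u‖ - ‖u'‖| ≤ ‖u - u'‖ := abs_norm_sub_norm_le _ _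
    have hs : 0 ≤ ‖u‖ + ‖u'‖ := by positivity
    rw [e, abs_mul, abs_of_nonneg hs]
    calc (‖u‖ + ‖u'‖) * |‖u‖ - ‖u'‖| * TL d a b
        ≤ (TB d a b + TB d a b) * ‖u - u'‖ * TL d a b := by gcongr
      _ = 2 * TB d a b * TL d a b * ‖u - u'‖ := by ring
      _ ≤ TN d a b * ‖u - u'‖ := by gcongr

theorem cls_T_re : Cls (fun E h => (T (mcl d a b E) h).re / TN d a b) := by
  have hc := cab_pos hd ha hb
  obtain ⟨h1, h2, h3, h4, h5⟩ := TN_ge hc
  have hL : 0 ≤ TL d a b := TL_nonneg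
  refine cls_of_comp hd hab ha hb (Ψ := fun u => u.re) (by fun_prop) ?_ ?_
  · intro u hu
    exact ((Complex.abs_re_le_norm u).trans hu).trans h2
  · intro u u' hu hu'
    have : |u.re - u'.re| ≤ ‖u - u'‖ := by
      rw [← Complex.sub_re]
      exact Complex.abs_re_le_norm _
    calc |u.re - u'.re| * TL d a b ≤ ‖u - u'‖ * TN d a b := by gcongr
      _ = _ := by ring

theorem cls_T_im : Cls (fun E h => (T (mcl d a b E) h).im / TN d a b) := by
  have hc := cab_pos hd ha hb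
  obtain ⟨h1, h2, h3, h4, h5⟩ := TN_ge hc
  have hL : 0 ≤ TL d a b := TL_nonneg
  refine cls_of_comp hd hab ha hb (Ψ := fun u => u.im) (by fun_prop) ?_ ?_
  · intro u hu
    exact ((Complex.abs_im_le_norm u).trans hu).trans h2
  · intro u u' hu hu'
    have : |u.im - u'.im| ≤ ‖u - u'‖ := by
      rw [← Complex.sub_im]
      exact Complex.abs_im_le_norm _
    calc |u.im - u'.im| * TL d a b ≤ ‖u - u'‖ * TN d a b := by gcongr
      _ = _ := by ring

end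

end P156.H613
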