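import Vale.Agent.P156.H613.Base

/-!
Part C8: the test function and the pointwise base estimate.
-/

open Complex
open scoped ComplexConjugate

namespace P156.H613

/-- spectral parameter `E + i η` -/
noncomputable def zz (E η : ℝ) : ℂ := E + η * I

@[simp] lemma zz_im (E η : ℝ) : (zz E η).im = η := by simp [zz]
@[simp] lemma zz_re (E η : ℝ) : (zz E η).re = E := by simp [zz]

lemma norm_zz_le {E η R : ℝ} (hE : |E| ≤ R) (hη : 0 ≤ η) : ‖zz E η‖ ≤ R + η := by
  unfold zz
  refine (norm_add_le _ _).trans ?_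
  rw [norm_mul, Complex.norm_real, Complex.norm_real, Complex.norm_I, mul_one,
    Real.norm_eq_abs, Real.norm_of_nonneg hη]
  gcongr

/-- The class of test functions used in the quenched recursion (C5). -/
structure Cls (F : ℝ → ℂ → ℝ) : Prop where
  meas : Measurable (Function.uncurry F)
  bdd : ∀ E h, 0 < h.im → |F E h| ≤ 1
  lip : ∀ E h h', 0 < h.im → 0 < h'.im → |F E h - F E h'| ≤ ‖h - h'‖
  lipInv : ∀ E g g', 0 < g.im → 0 < g'.im → |F E (-1 / g) - F E (-1 / g')| ≤ ‖g - g'‖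

/-- lower bound of `Im m(E + iη)` for `|E| ≤ R` -/
noncomputable def mlow (q : ℕ) (η R : ℝ) : ℝ := η / (R + η + q) ^ 2

/-- lower bound of `Im` on the range -/
noncomputable def imlow (q : ℕ) (η R c : ℝ) : ℝ := min c (η / (R + η + q / η) ^ 2)

/-- upper bound of `phi` on the range -/
noncomputable def Mbd (q : ℕ) (η R c : ℝ) : ℝ :=
  (1 / η + 1) ^ 2 / (imlow q η R c * mlow q η R)

/-- normalisation -/
noncomputable def Cbd (q : ℕ) (η R c : ℝ) : ℝ :=
  Mbd q η R c + (4 + Mbd q η R c) ^ 2 / mlow q η R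

/-- the test function of C8 -/
noncomputable def testF (q : ℕ) (η R c : ℝ) (E : ℝ) (h : ℂ) : ℝ :=
  if |E| ≤ R then trunc (Mbd q η R c) (‖cay (mz q (zz E η)) h‖ ^ 2) / Cbd q η R c else 0

section

variable {q : ℕ} {η R c : ℝ}

lemma mlow_pos (hq : 1 ≤ q) (hη : 0 < η) (hR : 0 ≤ R) : 0 < mlow q η R := by
  unfold mlow
  have : (1 : ℝ) ≤ q := by exact_mod_cast hq
  positivity

lemma imlow_pos (hq : 1 ≤ q) (hη : 0 < η) (hR : 0 ≤ R) (hc : 0 < c) : 0 < imlow q η R c := by
  unfold imlow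
  have : (1 : ℝ) ≤ q := by exact_mod_cast hq
  apply lt_min hc
  positivity

lemma Mbd_pos (hq : 1 ≤ q) (hη : 0 < η) (hR : 0 ≤ R) (hc : 0 < c) : 0 < Mbd q η R c := by
  unfold Mbd
  have h1 := mlow_pos hq hη hR
  have h2 := imlow_pos hq hη hR hc
  positivity

lemma Cbd_pos (hq : 1 ≤ q) (hη : 0 < η) (hR : 0 ≤ R) (hc : 0 < c) : 0 < Cbd q η R c := by
  unfold Cbd
  have h1 := mlow_pos hq hη hR
  have h2 := Mbd_pos hq hη hR hc
  positivity

lemma mlow_le {E : ℝ} (hq : 1 ≤ q) (hη : 0 < η) (hE : |E| ≤ R) :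
    mlow q η R ≤ (mz q (zz E η)).im := by
  have h := mz_isM hq (z := zz E η) (by simpa using hη)
  have h1 := h.im_lower (by simpa using hη.le) hq
  rw [zz_im] at h1
  refine le_trans ?_ h1
  unfold mlow
  have h2 := norm_zz_le hE hη.le
  have : (1 : ℝ) ≤ q := by exact_mod_cast hq
  have h0 := norm_nonneg (zz E η)
  gcongr

lemma testF_measurable : Measurable (Function.uncurry (testF q η R c)) := by
  unfold Function.uncurry testF
  apply Measurable.ite
  · exact measurableSet_le (by fun_prop) measurable_const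
  · apply Measurable.div_const
    have h1 : Measurable fun a : ℝ × ℂ => cay (mz q (zz a.1 η)) a.2 := by
      unfold cay zz
      have : Measurable fun a : ℝ × ℂ => mz q ((a.1 : ℂ) + η * I) :=
        (measurable_mz q).comp (by fun_prop)
      have h2 : Measurable fun a : ℝ × ℂ => conj (mz q ((a.1 : ℂ) + η * I)) :=
        (Complex.continuous_conj.measurable).comp this
      exact (measurable_snd.sub this).div (measurable_snd.sub h2)
    have h3 : Measurable (trunc (Mbd q η R c)) := by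
      unfold trunc
      fun_prop
    exact h3.comp (h1.norm.pow_const 2)
  · exact measurable_const

lemma testF_cls (hq : 1 ≤ q) (hη : 0 < η) (hR : 0 ≤ R) (hc : 0 < c) :
    Cls (testF q η R c) := by
  have hM := Mbd_pos hq hη hR hc
  have hC := Cbd_pos hq hη hR hc
  have hml := mlow_pos hq hη hR
  have hC1 : Mbd q η R c ≤ Cbd q η R c := by
    unfold Cbd
    have : 0 ≤ (4 + Mbd q η R c) ^ 2 / mlow q η R := by positivity
    linarith
  have hC2 : (4 + Mbd q η R c) ^ 2 / mlow q η R ≤ Cbd q η R c := by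
    unfold Cbd
    linarith
  refine ⟨testF_measurable, ?_, ?_, ?_⟩
  · intro E h hh
    unfold testF
    split_ifs with hE
    · have h1 := trunc_nonneg (s := ‖cay (mz q (zz E η)) h‖ ^ 2) hM (by positivity)
      have h2 := trunc_le (s := ‖cay (mz q (zz E η)) h‖ ^ 2) hM
      rw [abs_of_nonneg (div_nonneg h1 hC.le), div_le_one hC]
      linarith
    · simp
  · intro E h h' hh hh'
    unfold testF
    split_ifs with hE
    · have hm := (mz_isM hq (z := zz E η) (by simpa using hη)).im_pos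
      have h1 := trunc_cay_lip hM hm hh hh'
      have h2 := mlow_le hq hη hE
      rw [← sub_div, abs_div, abs_of_pos hC, div_le_iff₀ hC]
      calc _ ≤ (4 + Mbd q η R c) ^ 2 / (mz q (zz E η)).im * ‖h - h'‖ := h1
        _ ≤ (4 + Mbd q η R c) ^ 2 / mlow q η R * ‖h - h'‖ := by gcongr
        _ ≤ Cbd q η R c * ‖h - h'‖ := by gcongr
        _ = _ := by ring
    · simp
  · intro E g g' hg hg'
    unfold testF
    split_ifs with hE
    · have hIs := mz_isM hq (z := zz E η) (by simpa using hη)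
      have hm := hIs.im_pos
      rw [trunc_cay_neg_inv hm hg, trunc_cay_neg_inv hm hg']
      have h1 := trunc_cay_lip hM (im_neg_inv_pos hm) hg hg'
      have h2 := mlow_le hq hη hE
      have h3 : mlow q η R ≤ (-1 / mz q (zz E η)).im := by
        rw [hIs.neg_inv, IsM.im_add, zz_im]
        have : (1 : ℝ) ≤ q := by exact_mod_cast hq
        nlinarith
      rw [← sub_div, abs_div, abs_of_pos hC, div_le_iff₀ hC]
      calc _ ≤ (4 + Mbd q η R c) ^ 2 / (-1 / mz q (zz E η)).im * ‖g - g'‖ := h1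
        _ ≤ (4 + Mbd q η R c) ^ 2 / mlow q η R * ‖g - g'‖ := by gcongr
        _ ≤ Cbd q η R c * ‖g - g'‖ := by gcongr
        _ = _ := by ring
    · simp

/-- on the range, `phi` is bounded -/
lemma phi_le_Mbd (hq : 1 ≤ q) (hη : 0 < η) (hR : 0 ≤ R) (hc : 0 < c) {E : ℝ} (hE : |E| ≤ R)
    {h : ℂ} (h1 : ‖h‖ ≤ 1 / η) (h2 : imlow q η R c ≤ h.im) :
    phi (mz q (zz E η)) h ≤ Mbd q η R c := by
  have hIs := mz_isM hq (z := zz E η) (by simpa using hη)
  have hm1 := hIs.norm_le_one (by simpa using hη.le) hq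
  have hm2 := mlow_le hq hη hE
  have p1 := mlow_pos hq hη hR
  have p2 := imlow_pos hq hη hR hc
  have p3 : 0 ≤ h.im := p2.le.trans h2
  unfold phi Mbd
  gcongr
  exact (norm_sub_le _ _).trans (add_le_add h1 hm1)

lemma range_child (hη : 0 < η) {E : ℝ} (hE : |E| ≤ R)
    {h : Fin q → ℂ} (h1 : ∀ k, ‖h k‖ ≤ 1 / η) (h2 : ∀ k, 0 ≤ (h k).im) :
    ‖-1 / (zz E η + ∑ k, h k)‖ ≤ 1 / η ∧ imlow q η R c ≤ (-1 / (zz E η + ∑ k, h k)).im := by
  have him : η ≤ (zz E η + ∑ k, h k).im := by
    rw [Complex.add_im, Complex.im_sum, zz_im]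
    have : 0 ≤ ∑ k, (h k).im := Finset.sum_nonneg fun k _ => h2 k
    linarith
  have hn : η ≤ ‖zz E η + ∑ k, h k‖ := him.trans ((le_abs_self _).trans (Complex.abs_im_le_norm _))
  have hn2 : ‖zz E η + ∑ k, h k‖ ≤ R + η + q / η := by
    refine (norm_add_le _ _).trans ?_
    gcongr
    · exact norm_zz_le hE hη.le
    · refine (norm_sum_le _ _).trans ?_
      calc ∑ k, ‖h k‖ ≤ ∑ _k : Fin q, 1 / η := Finset.sum_le_sum fun k _ => h1 k
        _ = q / η := by simp [div_eq_mul_inv]
  have hnp : 0 < ‖zz E η + ∑ k, h k‖ := lt_of_lt_of_le hη hn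
  constructor
  · rw [norm_div, norm_neg, norm_one]
    gcongr
  · unfold imlow
    refine (min_le_right _ _).trans ?_
    have him0 : 0 ≤ (zz E η + ∑ k, h k).im := hη.le.trans him
    rw [im_neg_inv, Complex.normSq_eq_norm_sq]
    gcongr

/-- **C8, pointwise form.** -/
theorem base_pointwise (hq : 1 ≤ q) (hη : 0 < η) (hR : 0 ≤ R) (hc : 0 < c) {E : ℝ}
    (hE : |E| ≤ R) {ι : Type*} [Fintype ι] {p : ι → ℝ} (hp : ∀ i, 0 ≤ p i)
    (hp1 : ∑ i, p i = 1) {h : ι → ℂ} (h1 : ∀ i, ‖h i‖ ≤ 1 / η) (h2 : ∀ i, c ≤ (h i).im) :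
    ∑ i, p i * phi (mz q (zz E η)) (h i) ≤
      ((η + q) / η * Cbd q η R c) *
        |(∑ i, p i * testF q η R c E (h i)) -
          ∑ t : Fin q → ι, (∏ l, p (t l)) * testF q η R c E (-1 / (zz E η + ∑ k, h (t k)))| := by
  have hIs := mz_isM hq (z := zz E η) (by simpa using hη)
  have hm := hIs.im_pos
  have hz : 0 < (zz E η).im := by simpa using hη
  have hM := Mbd_pos hq hη hR hc
  have hC := Cbd_pos hq hη hR hc
  set m := mz q (zz E η) with hmdef
  set C := Cbd q η R c with hCdef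
  have him : ∀ i, 0 < (h i).im := fun i => lt_of_lt_of_le hc (h2 i)
  have hlow : ∀ i, imlow q η R c ≤ (h i).im := fun i => (min_le_left _ _).trans (h2 i)
  -- values of the test function
  have e1 : ∀ i, phi m (h i) = C * testF q η R c E (h i) := by
    intro i
    unfold testF
    rw [if_pos hE, ← hmdef, phi_eq_trunc hM hm (him i) (phi_le_Mbd hq hη hR hc hE (h1 i) (hlow i)),
      ← hCdef]
    field_simp
  have e2 : ∀ t : Fin q → ι, phi m (-1 / (zz E η + ∑ k, h (t k))) =
      C * testF q η R c E (-1 / (zz E η + ∑ k, h (t k))) := by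
    intro t
    obtain ⟨r1, r2⟩ := range_child (c := c) hη hE (h := fun k => h (t k)) (fun k => h1 _)
      (fun k => (him _).le)
    unfold testF
    rw [if_pos hE, ← hmdef, phi_eq_trunc hM hm
      (lt_of_lt_of_le (imlow_pos hq hη hR hc) r2) (phi_le_Mbd hq hη hR hc hE r1 r2), ← hCdef]
    rw [mul_div_cancel₀ _ hC.ne']
  set S1 := ∑ i, p i * testF q η R c E (h i) with hS1
  set S2 := ∑ t : Fin q → ι, (∏ l, p (t l)) * testF q η R c E (-1 / (zz E η + ∑ k, h (t k)))
    with hS2
  have a1 : ∑ i, p i * phi m (h i) = C * S1 := by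
    rw [hS1, Finset.mul_sum]
    refine Finset.sum_congr rfl fun i _ => ?_
    rw [e1 i]; ring
  have a2 : ∑ t : Fin q → ι, (∏ l, p (t l)) * phi m (-1 / (zz E η + ∑ k, h (t k))) = C * S2 := by
    rw [hS2, Finset.mul_sum]
    refine Finset.sum_congr rfl fun t _ => ?_
    rw [e2 t]; ring
  have key := phi_avg_contract hIs hz hp hp1 h him
  rw [a2, a1, zz_im] at key
  have hphi : 0 ≤ C * S1 := by
    rw [← a1]
    exact Finset.sum_nonneg fun i _ => mul_nonneg (hp i) (phi_nonneg hm (him i))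
  rw [a1]
  have hm1 : m.im ≤ 1 := hIs.im_le_one hz.le hq
  have hq' : (1 : ℝ) ≤ q := by exact_mod_cast hq
  have hfrac : η / (η + q) ≤ 1 - q * m.im / (η + q * m.im) := by
    have : 1 - q * m.im / (η + q * m.im) = η / (η + q * m.im) := by
      have : η + q * m.im ≠ 0 := by positivity
      field_simp
      ring
    rw [this]
    gcongr
    nlinarith
  have h3 : C * S1 ≤ C * |S1 - S2| + q * m.im / (η + q * m.im) * (C * S1) := by
    have : S1 ≤ |S1 - S2| + S2 := by linarith [le_abs_self (S1 - S2)]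
    nlinarith
  have h4 : η / (η + q) * (C * S1) ≤ C * |S1 - S2| := by
    nlinarith
  have h5 : C * S1 = (η + q) / η * (η / (η + q) * (C * S1)) := by
    field_simp
  rw [h5]
  calc (η + q) / η * (η / (η + q) * (C * S1)) ≤ (η + q) / η * (C * |S1 - S2|) := by gcongr
    _ = _ := by ring

end

end P156.H613
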